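import Vale.Agent.P231.S2I3.GsLin
import Vale.Agent.P231.S2N.DF

/-!
# P231, stage 2: the lifted flow on the space of frames, from a linear transport of `L` along the
geodesic flow
-/

set_option maxSynthPendingDepth 3
set_option linter.unusedSectionVars false
set_option linter.unusedVariables false

open Bundle Manifold Set Filter Module
open scoped ContDiff Manifold Topology

namespace Vale.Agent.P231.S2I3

noncomputable section

open Vale.Agent.P234 Vale.Agent.P231 Vale.Agent.P231.Fm Vale.Agent.P231.W Vale.Agent.P231.WR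
open Vale.Agent.P231.H775 InnerProductSpace

variable {E : Type*} [NormedAddCommGroup E] [NormedSpace ℝ E]
  {M : Type*} [MetricSpace M] [ChartedSpace E M]
  [RiemannianBundle (fun x : M => TangentSpace 𝓘(ℝ, E) x)]
  {e : ∀ x : M, TangentSpace 𝓘(ℝ, E) x → M}
  [FiniteDimensional ℝ E] [IsManifold 𝓘(ℝ, E) ∞ M]
  [IsContMDiffRiemannianBundle 𝓘(ℝ, E) ∞ E (fun x : M => TangentSpace 𝓘(ℝ, E) x)]
  [CompactSpace M] [ConnectedSpace M] [IsRiemannianManifold 𝓘(ℝ, E) M] {D : ℝ} {k l : ℕ}

/-- the raw vector `a` is in `L_v` -/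
def InL (e : ∀ x : M, TangentSpace 𝓘(ℝ, E) x → M) (D : ℝ) (v : UT E M) (a : E) : Prop :=
  (a : TangentSpace 𝓘(ℝ, E) (foot v)) ∈ Lf e D v

/-- a linear transport of `L` along the geodesic flow -/
structure LT (F : Facts e) (hD : 0 < D) (hB : InjGE e D) (hdiam : ∀ p q : M, dist p q ≤ D)
    (Tl : UT E M → ℝ → E →ₗ[ℝ] E) : Prop where
  mem : ∀ v t a, InL e D v a → InL e D (phi F (v, t)) (Tl v t a)
  zero : ∀ v a, InL e D v a → Tl v 0 a = a
  comp : ∀ v s t a, InL e D v a → Tl (phi F (v, s)) t (Tl v s a) = Tl v (s + t) a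
  half : ∀ v a, InL e D v a → Tl v D a = -Tr F hD hB hdiam v a
  rev : ∀ v t a, InL e D v a → Tl (ng v) t a = Tl v (-t) a
  map : ∀ {E' : Type} [NormedAddCommGroup E'] [NormedSpace ℝ E'] [FiniteDimensional ℝ E']
    {u : E' → UT E M} {τ : E' → ℝ} {a : E' → E} {x : E'}, (dUT E M).At u x → Sm τ x →
    (dTM E M).At (fun s => tb (foot (u s)) (a s)) x → (∀ᶠ s in 𝓝 x, InL e D (u s) (a s)) →
    (dTM E M).At (fun s => tb (gm e (u s, τ s)) (Tl (u s) (τ s) (a s))) x

variable (F : Facts e) (hD : 0 < D) (hB : InjGE e D) (hdiam : ∀ p q : M, dist p q ≤ D)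
    (hP : ∀ x y : M, dist x y = D → finrank ℝ (H775.Pl e D x y) = l + 1)
    (Tl : UT E M → ℝ → E →ₗ[ℝ] E)

theorem LT.inj {F : Facts e} {hD : 0 < D} {hB : InjGE e D} {hdiam : ∀ p q : M, dist p q ≤ D}
    {Tl : UT E M → ℝ → E →ₗ[ℝ] E} (h : LT F hD hB hdiam Tl) {v : UT E M} {t : ℝ} {a : E}
    (ha : InL e D v a) (h0 : Tl v t a = 0) : a = 0 := by
  have h1 := h.comp v t (-t) a ha
  rw [h0, map_zero, add_neg_cancel, h.zero v a ha] at h1
  exact h1.symm

theorem Fr.inL (p : Fr e D k) (i : Fin k) : InL e D p.v (vec' (p.w i)) := (p.isLF.isL i).mem_Lf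

/-- the transported vectors -/
def tv' (p : Fr e D k) (t : ℝ) (i : Fin k) : E := Tl p.v t (vec' (p.w i))

variable {Tl} in
theorem adm_tv (h : LT F hD hB hdiam Tl) (p : Fr e D k) (t : ℝ) :
    Adm e D (phi F (p.v, t)) (tv' Tl p t) := by
  refine ⟨?_, fun i => h.mem _ _ _ (p.inL i)⟩
  have h1 : LinearIndependent ℝ (fun i => (vec' (p.w i) : E)) := (adm_frame p).li
  rw [Fintype.linearIndependent_iff] at h1 ⊢
  intro g hg
  have hg' : ∑ i, g i • Tl p.v t (vec' (p.w i)) = 0 := hg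
  refine h1 g ?_
  refine h.inj (v := p.v) (t := t) ?_ ?_
  · have h3 : ∀ i, rv' (foot p.v) (fun i => vec' (p.w i)) i ∈ Lf e D p.v := fun i =>
      (p.isLF.isL i).mem_Lf
    exact Submodule.sum_mem _ fun i _ => Submodule.smul_mem _ _ (h3 i)
  · rw [map_sum]
    simp only [map_smul]
    exact hg'

/-- **the lifted flow on frames** -/
def LamF (q : Fr e D l × ℝ) : Fr e D l :=
  gsT F hD hB hdiam hP (phi F (q.1.v, q.2)) (tv' Tl q.1 q.2)

@[simp] theorem LamF_v (q : Fr e D l × ℝ) :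
    (LamF F hD hB hdiam hP Tl q).v = phi F (q.1.v, q.2) := gsT_v F hD hB hdiam hP _ _

section

variable {Tl} (h : LT F hD hB hdiam Tl)

include h

theorem LamF_w (q : Fr e D l × ℝ) (i : Fin l) :
    vec' ((LamF F hD hB hdiam hP Tl q).w i) =
      gsv (foot (phi F (q.1.v, q.2))) (tv' Tl q.1 q.2) i := by
  unfold LamF
  rw [gsT_of F hD hB hdiam hP (adm_tv F hD hB hdiam h q.1 q.2)]
  rfl

/-- smoothness -/
theorem map_LamF : ((dFr e D l).prod (Dif.lin ℝ)).Map (dFr e D l) (LamF F hD hB hdiam hP Tl) := by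
  intro E' _ _ _ u x hu
  have h1 : (dUT E M).At (fun s => phi F ((u s).1.v, (u s).2)) x :=
    map_phi F (u := fun s => ((u s).1.v, (u s).2)) ⟨hu.1.1, hu.2⟩
  refine at_gsT F hD hB hdiam hP h1 (fun i => ?_) (Eventually.of_forall fun s i =>
    (adm_tv F hD hB hdiam h (u s).1 (u s).2).mem i) (adm_tv F hD hB hdiam h (u x).1 (u x).2).li
  refine h.map (u := fun s => (u s).1.v) (τ := fun s => (u s).2)
    (a := fun s => vec' ((u s).1.w i)) hu.1.1 hu.2 ?_ (Eventually.of_forall fun s => (u s).1.inL i)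
  have h5 := at_iff.1 (hu.1.2 i)
  rw [smV_iff_tb]
  filter_upwards [h5] with s g1
  refine ContMDiffAt.congr_of_eventuallyEq g1 ?_
  exact Eventually.of_forall fun s' => tb_congr ((u s').1.foot_w i).symm rfl

omit h in
/-- Gram–Schmidt of the vectors of a frame at another base vector -/
theorem fr_ext {p q : Fr e D k} (hv : p.v = q.v) (hw : ∀ i, vec' (p.w i) = vec' (q.w i)) :
    p = q := by
  refine Fr.ext' hv fun i => ?_
  rw [← mk_eta (p.w i), ← mk_eta (q.w i)]
  refine mk_congr ?_ (hw i)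
  rw [p.foot_w, q.foot_w, hv]

omit h in
theorem gsv_of_frame (p : Fr e D k) {x : M} (hx : x = foot p.v) {a : Fin k → E}
    (ha : ∀ i, a i = vec' (p.w i)) (i : Fin k) : gsv x a i = vec' (p.w i) := by
  have h1 : a = fun i => vec' (p.w i) := funext ha
  rw [hx, h1]
  exact gsv_frame p i

theorem LamF_zero (p : Fr e D l) : LamF F hD hB hdiam hP Tl (p, 0) = p := by
  have h1 : (LamF F hD hB hdiam hP Tl (p, 0)).v = p.v := by
    rw [LamF_v]
    exact phi_zero F p.v
  refine fr_ext h1 fun i => ?_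
  rw [LamF_w F hD hB hdiam hP h]
  exact gsv_of_frame p (congrArg foot (phi_zero F p.v)) (fun i => h.zero _ _ (p.inL i)) i

theorem LamF_add (p : Fr e D l) (s t : ℝ) :
    LamF F hD hB hdiam hP Tl (LamF F hD hB hdiam hP Tl (p, s), t) =
      LamF F hD hB hdiam hP Tl (p, s + t) := by
  have hv1 : (LamF F hD hB hdiam hP Tl (p, s)).v = phi F (p.v, s) := LamF_v F hD hB hdiam hP Tl _
  refine fr_ext ?_ fun i => ?_
  · rw [LamF_v, LamF_v, LamF_v]
    exact phi_add F p.v s t
  · rw [LamF_w F hD hB hdiam hP h, LamF_w F hD hB hdiam hP h]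
    change gsv (foot (phi F ((LamF F hD hB hdiam hP Tl (p, s)).v, t)))
      (tv' Tl (LamF F hD hB hdiam hP Tl (p, s)) t) i = gsv (foot (phi F (p.v, s + t)))
      (tv' Tl p (s + t)) i
    have e1 : tv' Tl (LamF F hD hB hdiam hP Tl (p, s)) t = fun i =>
        Tl (phi F (p.v, s)) t (gsv (foot (phi F (p.v, s))) (tv' Tl p s) i) := by
      funext i
      unfold tv'
      rw [hv1, LamF_w F hD hB hdiam hP h]
      rfl
    have e2 : tv' Tl p (s + t) = fun i => Tl (phi F (p.v, s)) t (tv' Tl p s i) := by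
      funext i
      exact (h.comp _ _ _ _ (p.inL i)).symm
    have e3 : foot (phi F ((LamF F hD hB hdiam hP Tl (p, s)).v, t)) =
        foot (phi F (p.v, s + t)) := by
      rw [hv1, phi_add]
    rw [e1, e2, e3]
    let B : TangentSpace 𝓘(ℝ, E) (foot (phi F (p.v, s))) →ₗ[ℝ]
        TangentSpace 𝓘(ℝ, E) (foot (phi F (p.v, s + t))) := Tl (phi F (p.v, s)) t
    exact gsn_comp (adm_tv F hD hB hdiam h p s).li B i

/-- the half period -/
theorem LamF_half_w (p : Fr e D l) (i : Fin l) :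
    vec' ((LamF F hD hB hdiam hP Tl (p, D)).w i) = -Tr F hD hB hdiam p.v (vec' (p.w i)) := by
  have hp' : IsLF e D (phi F (p.v, D)) (fun i => ng (phi F (p.w i, D))) := by
    have hm : ∀ i, IsL e D (phi F (p.v, D)) (phi F (p.w i, D)) := fun i =>
      isL_Th F hD hB hdiam (p.isLF.isL i)
    refine ⟨fun i => (hm i).ng F hD hB hdiam, fun i j hij => ?_⟩
    have h1 := ip_Tr_of_mem F hD hB hdiam (p.inL i) (p.inL j)
    rw [(p.isLF.isL i).Tr_eq F hD hB hdiam, (p.isLF.isL j).Tr_eq F hD hB hdiam,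
      p.isLF.orth i j hij] at h1
    change ip (gm e (p.v, D)) (-vec' (phi F (p.w i, D))) (-vec' (phi F (p.w j, D))) = 0
    rw [ip_neg_right', ip_comm', ip_neg_right', ip_comm', h1, neg_zero, neg_zero]
  rw [LamF_w F hD hB hdiam hP h]
  have h1 := gsv_of_frame (Fr.mk' (phi F (p.v, D)) (fun i => ng (phi F (p.w i, D))) hp') rfl
    (a := tv' Tl p D) (fun i => by
      unfold tv'
      rw [h.half _ _ (p.inL i), (p.isLF.isL i).Tr_eq F hD hB hdiam]
      rfl) i
  refine h1.trans ?_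
  rw [(p.isLF.isL i).Tr_eq F hD hB hdiam]
  rfl

/-- the flow has period `2 D` -/
theorem LamF_per (p : Fr e D l) : LamF F hD hB hdiam hP Tl (p, 2 * D) = p := by
  have h0 : 2 * D = D + D := two_mul D
  rw [h0, ← LamF_add F hD hB hdiam hP h]
  have hv1 : (LamF F hD hB hdiam hP Tl (p, D)).v = phi F (p.v, D) := LamF_v F hD hB hdiam hP Tl _
  refine fr_ext ?_ fun i => ?_
  · rw [LamF_v, LamF_v]
    exact S2N.phi_D_D F hD hB hdiam p.v
  · rw [LamF_half_w F hD hB hdiam hP h, LamF_half_w F hD hB hdiam hP h, hv1]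
    have h1 : ∀ a : E, Tr F hD hB hdiam (phi F (p.v, D)) (-a) =
        -Tr F hD hB hdiam (phi F (p.v, D)) a := fun a => by
      rw [← neg_one_smul ℝ a, Tr_smul, neg_one_smul]
    rw [h1, neg_neg, Tr_Tr_of_mem F hD hB hdiam (p.inL i)]

theorem isFlow_LamF : IsFlow (dFr e D l) (2 * D) (LamF F hD hB hdiam hP Tl) where
  map := map_LamF F hD hB hdiam hP h
  zero := LamF_zero F hD hB hdiam hP h
  add := LamF_add F hD hB hdiam hP h
  per := LamF_per F hD hB hdiam hP h

/-- the first vector -/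
theorem LamF_w0 {m : ℕ} (hP' : ∀ x y : M, dist x y = D → finrank ℝ (H775.Pl e D x y) = m + 1 + 1)
    (q : Fr e D (m + 1) × ℝ) : vec' ((LamF F hD hB hdiam hP' Tl q).w 0) =
      (nm (gm e (q.1.v, q.2)) (Tl q.1.v q.2 (vec' (q.1.w 0))))⁻¹ •
        Tl q.1.v q.2 (vec' (q.1.w 0)) := by
  rw [LamF_w F hD hB hdiam hP' h]
  exact gsn_zero_eq (rv' (foot (phi F (q.1.v, q.2))) (tv' Tl q.1 q.2))

end

/-! ### reversal, signs, rotation -/

/-- reversal of the base vector -/
def NF (p : Fr e D k) : Fr e D k :=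
  Fr.mk' (ng p.v) (fun i => p.w i)
    ⟨fun i => S2N.isL_ng F hD hB hdiam (p.isLF.isL i), fun i j hij => p.isLF.orth i j hij⟩

@[simp] theorem NF_v (p : Fr e D k) : (NF F hD hB hdiam p).v = ng p.v := rfl

@[simp] theorem NF_w (p : Fr e D k) (i : Fin k) : (NF F hD hB hdiam p).w i = p.w i := rfl

theorem NF_NF (p : Fr e D k) : NF F hD hB hdiam (NF F hD hB hdiam p) = p :=
  Fr.ext' (ng_ng p.v) fun i => rfl

theorem map_NF : (dFr e D k).Map (dFr e D k) (NF F hD hB hdiam) :=
  fun {E'} _ _ _ {u x} h => ⟨map_ng h.1, h.2⟩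

variable {Tl} in
/-- **reversal** -/
theorem NF_LamF (h : LT F hD hB hdiam Tl) (p : Fr e D l) (t : ℝ) :
    NF F hD hB hdiam (LamF F hD hB hdiam hP Tl (p, t)) =
      LamF F hD hB hdiam hP Tl (NF F hD hB hdiam p, -t) := by
  refine fr_ext ?_ fun i => ?_
  · rw [NF_v, LamF_v, LamF_v]
    exact S2N.ng_phi F p.v t
  · rw [NF_w, LamF_w F hD hB hdiam hP h, LamF_w F hD hB hdiam hP h]
    have e1 : tv' Tl (NF F hD hB hdiam p) (-t) = tv' Tl p t := by
      funext i
      change Tl (ng p.v) (-t) (vec' (p.w i)) = Tl p.v t (vec' (p.w i))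
      rw [h.rev _ _ _ (p.inL i), neg_neg]
    have e2 : foot (phi F ((NF F hD hB hdiam p).v, -t)) = foot (phi F (p.v, t)) := by
      rw [NF_v, ← S2N.ng_phi]
      rfl
    change gsv (foot (phi F (p.v, t))) (tv' Tl p t) i =
      gsv (foot (phi F ((NF F hD hB hdiam p).v, -t))) (tv' Tl (NF F hD hB hdiam p) (-t)) i
    rw [e1, e2]

/-- change of the signs of the vectors of the frame with index in `S` -/
def SF (S : Finset (Fin k)) (p : Fr e D k) : Fr e D k :=
  Fr.mk' p.v (fun i => if i ∈ S then ng (p.w i) else p.w i)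
    ⟨fun i => by
      by_cases hi : i ∈ S
      · simp only [hi, if_true]
        exact (p.isLF.isL i).ng F hD hB hdiam
      · simp only [hi, if_false]
        exact p.isLF.isL i, fun i j hij => by
      have h0 := p.isLF.orth i j hij
      have h1 : ∀ i, vec' (if i ∈ S then ng (p.w i) else p.w i) =
          (if i ∈ S then (-1 : ℝ) else 1) • vec' (p.w i) := fun i => by
        by_cases hi : i ∈ S
        · simp [hi]
        · simp [hi]
      change ip (foot p.v) (vec' (if i ∈ S then ng (p.w i) else p.w i))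
        (vec' (if j ∈ S then ng (p.w j) else p.w j)) = 0
      rw [h1, h1, ip_smul_right', ip_smul_left', h0, mul_zero, mul_zero]⟩

@[simp] theorem SF_v (S : Finset (Fin k)) (p : Fr e D k) : (SF F hD hB hdiam S p).v = p.v := rfl

theorem SF_w (S : Finset (Fin k)) (p : Fr e D k) (i : Fin k) :
    (SF F hD hB hdiam S p).w i = if i ∈ S then ng (p.w i) else p.w i := rfl

theorem SF_vec (S : Finset (Fin k)) (p : Fr e D k) (i : Fin k) :
    vec' ((SF F hD hB hdiam S p).w i) = (if i ∈ S then (-1 : ℝ) else 1) • vec' (p.w i) := by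
  rw [SF_w]
  by_cases hi : i ∈ S
  · simp [hi]
  · simp [hi]

theorem map_SF (S : Finset (Fin k)) : (dFr e D k).Map (dFr e D k) (SF F hD hB hdiam S) :=
  fun {E'} _ _ _ {u x} h => ⟨h.1, fun i => by
    by_cases hi : i ∈ S
    · have h1 : (fun y => (SF F hD hB hdiam S (u y)).w i) = fun y => ng ((u y).w i) := by
        funext y
        rw [SF_w, if_pos hi]
      change (dUT E M).At (fun y => (SF F hD hB hdiam S (u y)).w i) x
      rw [h1]
      exact map_ng (h.2 i)
    · have h1 : (fun y => (SF F hD hB hdiam S (u y)).w i) = fun y => (u y).w i := by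
        funext y
        rw [SF_w, if_neg hi]
      change (dUT E M).At (fun y => (SF F hD hB hdiam S (u y)).w i) x
      rw [h1]
      exact h.2 i⟩

variable {Tl} in
/-- **changes of signs commute with the flow** -/
theorem SF_LamF (h : LT F hD hB hdiam Tl) (S : Finset (Fin l)) (p : Fr e D l) (t : ℝ) :
    SF F hD hB hdiam S (LamF F hD hB hdiam hP Tl (p, t)) =
      LamF F hD hB hdiam hP Tl (SF F hD hB hdiam S p, t) := by
  refine fr_ext ?_ fun i => ?_
  · rw [SF_v, LamF_v, LamF_v, SF_v]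
  · rw [SF_vec, LamF_w F hD hB hdiam hP h, LamF_w F hD hB hdiam hP h]
    change (if i ∈ S then (-1 : ℝ) else 1) • gsv (foot (phi F (p.v, t))) (tv' Tl p t) i =
      gsv (foot (phi F (p.v, t))) (tv' Tl (SF F hD hB hdiam S p) t) i
    have e1 : tv' Tl (SF F hD hB hdiam S p) t =
        fun i => (if i ∈ S then (-1 : ℝ) else 1) • tv' Tl p t i := by
      funext i
      unfold tv'
      rw [SF_vec, SF_v, map_smul]
    rw [e1]
    exact (gsn_sign (rv' (foot (phi F (p.v, t))) (tv' Tl p t))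
      (ε := fun i => if i ∈ S then (-1 : ℝ) else 1) (fun i => by
        by_cases hi : i ∈ S
        · right
          simp [hi]
        · left
          simp [hi]) i).symm

/-! ### the rotation of the plane of `v` and the first vector -/

/-- the rotated frame: `v` and the first vector are rotated, the other vectors are fixed -/
def rotF {m : ℕ} (q : Fr e D (m + 1) × ℝ) : Fr e D (m + 1) :=
  Fr.mk' (R F hD hB hdiam (q.1.pr 0, q.2)).v
    (fun i => if i = 0 then (R F hD hB hdiam (q.1.pr 0, q.2)).w else q.1.w i)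
    ⟨fun i => by
      by_cases hi : i = 0
      · simp only [hi, if_true]
        exact (R F hD hB hdiam (q.1.pr 0, q.2)).isL
      · simp only [hi, if_false]
        have h0 := q.1.isLF.orth 0 i (Ne.symm hi)
        have h1 := (q.1.isLF.isL i)
        refine ⟨h1.foot_eq, ?_, ?_⟩
        · rw [R_v, foot_rv, vec'_rv, ip_add_left', ip_smul_left', ip_smul_left']
          change Real.cos q.2 * ip (foot q.1.v) (vec' q.1.v) (vec' (q.1.w i)) +
            Real.sin q.2 * ip (foot q.1.v) (vec' (q.1.w 0)) (vec' (q.1.w i)) = 0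
          rw [h1.orth, h0, mul_zero, mul_zero, add_zero]
        · rw [R_v, bar_rv F hD hB hdiam]
          exact h1.bar_eq, fun i j hij => by
      have key : ∀ i, i ≠ 0 → ip (foot q.1.v) (vec' (R F hD hB hdiam (q.1.pr 0, q.2)).w)
          (vec' (q.1.w i)) = 0 := by
        intro i hi
        have h0 := q.1.isLF.orth 0 i (Ne.symm hi)
        have h1 := (q.1.isLF.isL i)
        rw [R_w, vec'_rw, ip_add_left', ip_smul_left', ip_smul_left']
        change -Real.sin q.2 * ip (foot q.1.v) (vec' q.1.v) (vec' (q.1.w i)) +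
          Real.cos q.2 * ip (foot q.1.v) (vec' (q.1.w 0)) (vec' (q.1.w i)) = 0
        rw [h1.orth, h0, mul_zero, mul_zero, add_zero]
      change ip (foot q.1.v) (vec' (if i = 0 then (R F hD hB hdiam (q.1.pr 0, q.2)).w else q.1.w i))
        (vec' (if j = 0 then (R F hD hB hdiam (q.1.pr 0, q.2)).w else q.1.w j)) = 0
      by_cases hi : i = 0
      · have hj : j ≠ 0 := fun h => hij (hi.trans h.symm)
        rw [if_pos hi, if_neg hj]
        exact key j hj
      · by_cases hj : j = 0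
        · rw [if_neg hi, if_pos hj, ip_comm']
          exact key i hi
        · rw [if_neg hi, if_neg hj]
          exact q.1.isLF.orth i j hij⟩

@[simp] theorem rotF_v {m : ℕ} (q : Fr e D (m + 1) × ℝ) :
    (rotF F hD hB hdiam q).v = (R F hD hB hdiam (q.1.pr 0, q.2)).v := rfl

theorem rotF_w {m : ℕ} (q : Fr e D (m + 1) × ℝ) (i : Fin (m + 1)) :
    (rotF F hD hB hdiam q).w i =
      if i = 0 then (R F hD hB hdiam (q.1.pr 0, q.2)).w else q.1.w i := rfl

theorem rotF_w0 {m : ℕ} (q : Fr e D (m + 1) × ℝ) :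
    (rotF F hD hB hdiam q).w 0 = (R F hD hB hdiam (q.1.pr 0, q.2)).w := by
  rw [rotF_w, if_pos rfl]

theorem rotF_wi {m : ℕ} (q : Fr e D (m + 1) × ℝ) {i : Fin (m + 1)} (hi : i ≠ 0) :
    (rotF F hD hB hdiam q).w i = q.1.w i := by
  rw [rotF_w, if_neg hi]

/-- the rotation on the first vector -/
theorem rotF_pr {m : ℕ} (q : Fr e D (m + 1) × ℝ) :
    (rotF F hD hB hdiam q).pr 0 = R F hD hB hdiam (q.1.pr 0, q.2) :=
  Pr.ext' rfl (rotF_w0 F hD hB hdiam q)

theorem map_rotF {m : ℕ} :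
    ((dFr e D (m + 1)).prod (Dif.lin ℝ)).Map (dFr e D (m + 1)) (rotF F hD hB hdiam) := by
  intro E' _ _ _ u x hu
  have h1 : (dPr e D).At (fun s => R F hD hB hdiam ((u s).1.pr 0, (u s).2)) x :=
    map_R F hD hB hdiam (u := fun s => ((u s).1.pr 0, (u s).2)) ⟨map_Frpr 0 hu.1, hu.2⟩
  refine ⟨h1.1, fun i => ?_⟩
  by_cases hi : i = 0
  · have h2 : (fun y => (rotF F hD hB hdiam (u y)).w i) =
      fun y => (R F hD hB hdiam ((u y).1.pr 0, (u y).2)).w := by
      funext y
      rw [rotF_w, if_pos hi]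
    change (dUT E M).At (fun y => (rotF F hD hB hdiam (u y)).w i) x
    rw [h2]
    exact h1.2
  · have h2 : (fun y => (rotF F hD hB hdiam (u y)).w i) = fun y => (u y).1.w i := by
      funext y
      rw [rotF_w, if_neg hi]
    change (dUT E M).At (fun y => (rotF F hD hB hdiam (u y)).w i) x
    rw [h2]
    exact hu.1.2 i

theorem rotF_zero {m : ℕ} (p : Fr e D (m + 1)) : rotF F hD hB hdiam (p, 0) = p := by
  refine Fr.ext' (rv_zero (p.pr 0)) fun i => ?_
  by_cases hi : i = 0
  · subst hi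
    rw [rotF_w0]
    exact rw_zero (p.pr 0)
  · rw [rotF_wi F hD hB hdiam _ hi]

theorem rotF_pi {m : ℕ} (p : Fr e D (m + 1)) :
    rotF F hD hB hdiam (p, Real.pi) = SF F hD hB hdiam {0} (NF F hD hB hdiam p) := by
  have hv : (R F hD hB hdiam (p.pr 0, Real.pi)).v = ng p.v := by
    rw [R_v, ← mk_eta (rv _ _), ← mk_eta (ng p.v)]
    refine mk_congr rfl ?_
    change vec' (rv (p.pr 0) Real.pi) = -vec' p.v
    rw [vec'_rv, Real.cos_pi, Real.sin_pi, zero_smul, add_zero, neg_smul, one_smul]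
    rfl
  refine fr_ext hv fun i => ?_
  rw [SF_vec, NF_w]
  by_cases hi : i = 0
  · subst hi
    rw [rotF_w0, R_w, vec'_rw, Real.cos_pi, Real.sin_pi]
    simp
  · rw [rotF_wi F hD hB hdiam _ hi]
    simp [hi]

end

end Vale.Agent.P231.S2I3
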