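import Vale.Agent.P231.S2I3.Main
import Vale.Agent.P231.S2I.Lift

/-!
# P231, stage 2, block S2-I (I3), part 6: families of frames of one fibre as rotation matrices
-/

set_option maxSynthPendingDepth 3
set_option linter.unusedSectionVars false
set_option linter.unusedVariables false

open Bundle Manifold Set Filter Module
open scoped ContDiff Manifold Topology ENNReal

namespace Vale.Agent.P231.S2I3

noncomputable section

open Vale.Agent.P234 Vale.Agent.P231 Vale.Agent.P231.Fm Vale.Agent.P231.W Vale.Agent.P231.WR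
open Vale.Agent.P231.H775 Vale.Agent.P231.WE Vale.Agent.P231.WF InnerProductSpace
open Vale.Agent.P231.S2I (Px dPx ret ret_val ret_of ret_coe at_ret map_val M3 IsSO RotMap)

variable {E : Type*} [NormedAddCommGroup E] [NormedSpace ℝ E]
  {M : Type*} [MetricSpace M] [ChartedSpace E M]
  [RiemannianBundle (fun x : M => TangentSpace 𝓘(ℝ, E) x)]
  {e : ∀ x : M, TangentSpace 𝓘(ℝ, E) x → M}
  [FiniteDimensional ℝ E] [IsManifold 𝓘(ℝ, E) ∞ M]
  [IsContMDiffRiemannianBundle 𝓘(ℝ, E) ∞ E (fun x : M => TangentSpace 𝓘(ℝ, E) x)]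
  [CompactSpace M] [ConnectedSpace M] [IsRiemannianManifold 𝓘(ℝ, E) M] {D : ℝ}

/-- the matrix of the frame `p` in the frame `p₀` -/
def mt {l : ℕ} (p₀ p : Fr e D l) (i j : Fin l) : ℝ :=
  ip (foot p₀.v) (vec' (p₀.w i)) (vec' (p.w j))

variable (F : Facts e) (hD : 0 < D) (hB : InjGE e D) (hdiam : ∀ p q : M, dist p q ≤ D)
    {l : ℕ} (hP : ∀ x y : M, dist x y = D → finrank ℝ (H775.Pl e D x y) = l + 1)

include F hD hB hdiam hP in
/-- the vectors of `p` in the frame `p₀` -/
theorem mt_sum {p₀ p : Fr e D l} (h : p.v = p₀.v) (j : Fin l) :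
    vec' (p.w j) = ∑ i, mt p₀ p i j • vec' (p₀.w i) := by
  have h1 : IsL e D p₀.v (p.w j) := by
    rw [← h]
    exact p.isLF.isL j
  have h2 := p₀.isLF.sum_eq F hD hB hdiam hP (H775.Lk_subset_Pl D _ _ h1.mem_Lk)
  rw [h1.orth, zero_smul, zero_add] at h2
  exact h2

include F hD hB hdiam hP in
theorem mt_orth {p₀ p : Fr e D l} (h : p.v = p₀.v) :
    (Matrix.of (mt p₀ p)).transpose * Matrix.of (mt p₀ p) = 1 := by
  ext j k
  rw [Matrix.mul_apply]
  simp only [Matrix.transpose_apply, Matrix.of_apply]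
  have h1 : ip (foot p₀.v) (vec' (p.w j)) (vec' (p.w k)) = ∑ i, mt p₀ p i j * mt p₀ p i k := by
    conv_lhs => rw [mt_sum F hD hB hdiam hP h k]
    rw [ip_sum_right]
    refine Finset.sum_congr rfl fun i _ => ?_
    rw [ip_smul_right', ip_comm', mul_comm]
    rfl
  rw [← h1, ← h]
  by_cases hjk : j = k
  · subst hjk
    rw [Matrix.one_apply_eq]
    exact (p.isLF.isL j).ip_self
  · rw [Matrix.one_apply_ne hjk]
    exact p.isLF.orth j k hjk

theorem mt_self_of {p : Fr e D l} : mt p p = fun i j => if i = j then 1 else 0 := by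
  funext i j
  by_cases hij : i = j
  · subst hij
    rw [if_pos rfl]
    exact (p.isLF.isL i).ip_self
  · rw [if_neg hij]
    exact p.isLF.orth i j hij

variable {V : Type} [NormedAddCommGroup V] [InnerProductSpace ℝ V] [FiniteDimensional ℝ V]
  [Nontrivial V]

include F hD hB hdiam in
/-- **families of frames of one fibre are rotation matrices** -/
theorem exists_rotMap (hP3 : ∀ x y : M, dist x y = D → finrank ℝ (H775.Pl e D x y) = 3 + 1)
    {j : Px V → Fr e D 3} (hjm : (dPx V).Map (dFr e D 3) j)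
    (hom : ∀ x y : Px V, ∀ c : ℝ, 0 < c → (y : V) = c • (x : V) → j y = j x)
    {v₀ : UT E M} (hv : ∀ x, (j x).v = v₀) (h2 : 2 ≤ finrank ℝ V) :
    ∃ p₀ : Fr e D 3, p₀.v = v₀ ∧ RotMap (fun x : V => mt p₀ (j (ret x))) ∧
      ∀ (x : Px V) (i : Fin 3), vec' ((j x).w i) =
        ∑ k, mt p₀ (j (ret (x : V))) k i • vec' (p₀.w k) := by
  obtain ⟨x₀, hx₀⟩ := exists_ne (0 : V)
  set p₀ : Fr e D 3 := j (ret x₀) with hp₀
  have hpv : ∀ x, (j x).v = p₀.v := fun x => by rw [hv, hp₀, hv]
  have hsm : ∀ x : V, x ≠ 0 → ContDiffAt ℝ ∞ (fun x : V => mt p₀ (j (ret x))) x := by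
    intro x hx
    rw [contDiffAt_pi]
    intro i
    rw [contDiffAt_pi]
    intro k
    have h3 : (dUT E M).At (fun s => (j (ret s)).w k) x := (hjm (at_ret hx)).2 k
    have h4 := sm_ip' (u := fun _ : V => p₀.v) (w := fun _ : V => p₀.w i)
      (z := fun s => (j (ret s)).w k) (H583.at_const (p₀.w i) x) h3
      (Eventually.of_forall fun s => p₀.foot_w i) (Eventually.of_forall fun s => by
        rw [Fr.foot_w, hpv])
    exact h4.contDiffAt
  have horth : ∀ x : V, (Matrix.of (mt p₀ (j (ret x)))).transpose *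
      Matrix.of (mt p₀ (j (ret x))) = 1 := fun x => mt_orth F hD hB hdiam hP3 (hpv _)
  have hdet : ∀ x : V, x ≠ 0 → (Matrix.of (mt p₀ (j (ret x)))).det = 1 := by
    have hc : IsPreconnected ({0}ᶜ : Set V) := by
      refine (isConnected_compl_singleton_of_one_lt_rank ?_ 0).isPreconnected
      rw [← finrank_eq_rank]
      exact_mod_cast (by omega : 1 < finrank ℝ V)
    have hcont : ContinuousOn (fun x : V => (Matrix.of (mt p₀ (j (ret x)))).det) {0}ᶜ := by
      intro x hx
      have h3 : ContinuousAt (fun x : V => Matrix.of (mt p₀ (j (ret x)))) x :=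
        (hsm x hx).continuousAt
      have h4 : Continuous (fun A : Matrix (Fin 3) (Fin 3) ℝ => A.det) :=
        Continuous.matrix_det continuous_id
      exact (h4.continuousAt.comp h3).continuousWithinAt
    have hsq : EqOn ((fun x : V => (Matrix.of (mt p₀ (j (ret x)))).det) ^ 2) 1 {0}ᶜ := by
      intro x _
      have h3 := congrArg Matrix.det (horth x)
      rw [Matrix.det_mul, Matrix.det_transpose, Matrix.det_one] at h3
      simp only [Pi.pow_apply, Pi.one_apply]
      rw [sq]
      exact h3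
    have h0 : (Matrix.of (mt p₀ (j (ret x₀)))).det = 1 := by
      rw [← hp₀, mt_self_of]
      have h5 : (Matrix.of (fun i j : Fin 3 => if i = j then (1 : ℝ) else 0)) = 1 := by
        ext i j
        rw [Matrix.of_apply, Matrix.one_apply]
      rw [h5, Matrix.det_one]
    rcases hc.eq_one_or_eq_neg_one_of_sq_eq hcont hsq with h3 | h3
    · intro x hx
      exact h3 hx
    · have h4 := h3 (show x₀ ∈ ({0}ᶜ : Set V) from hx₀)
      simp only [Pi.neg_apply, Pi.one_apply] at h4
      rw [h0] at h4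
      norm_num at h4
  refine ⟨p₀, ?_, ⟨fun x hx => (hsm x hx).contDiffWithinAt, fun x hx => ⟨horth x, hdet x hx⟩,
    fun x hx c hc => ?_⟩, fun x i => ?_⟩
  · rw [hp₀, hv]
  · have h3 : j (ret (c • x)) = j (ret x) :=
      hom _ _ c hc (by rw [ret_val (smul_ne_zero hc.ne' hx), ret_val hx])
    rw [h3]
  · rw [ret_coe]
    exact mt_sum F hD hB hdiam hP3 (hpv x) i

end

end Vale.Agent.P231.S2I3
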