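import Vale.Agent.P231.S2I3.Lift
import Vale.Agent.P231.H583.YPos

/-!
# P231, stage 2, block S2-I (I3), part 4: contraction of unit vectors to a fixed unit vector

A unit vector `v` whose foot is not in the cut locus of `q₀` is contracted radially to a unit
vector at `q₀`, and then (simultaneously) linearly to `u₀`.
-/

set_option maxSynthPendingDepth 3
set_option linter.unusedSectionVars false
set_option linter.unusedVariables false

open Bundle Manifold Set Filter Module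
open scoped ContDiff Manifold Topology

namespace Vale.Agent.P231.S2I3

noncomputable section

open Vale.Agent.P234 Vale.Agent.P231 Vale.Agent.P231.Fm Vale.Agent.P231.W Vale.Agent.P231.WR
open Vale.Agent.P231.H775 Vale.Agent.P231.WE Vale.Agent.P231.WF InnerProductSpace

variable {E : Type*} [NormedAddCommGroup E] [NormedSpace ℝ E]
  {M : Type*} [MetricSpace M] [ChartedSpace E M]
  [RiemannianBundle (fun x : M => TangentSpace 𝓘(ℝ, E) x)]
  {e : ∀ x : M, TangentSpace 𝓘(ℝ, E) x → M}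
  [FiniteDimensional ℝ E] [IsManifold 𝓘(ℝ, E) ∞ M]
  [IsContMDiffRiemannianBundle 𝓘(ℝ, E) ∞ E (fun x : M => TangentSpace 𝓘(ℝ, E) x)]
  {V : Type*} [NormedAddCommGroup V] [NormedSpace ℝ V]

/-- the inclusion of a tangent space in the tangent bundle -/
theorem contMDiff_fiber (z : M) : ContMDiff 𝓘(ℝ, TangentSpace 𝓘(ℝ, E) z) (𝓘(ℝ, E).tangent) ∞
    (fun v : TangentSpace 𝓘(ℝ, E) z => (⟨z, v⟩ : TangentBundle 𝓘(ℝ, E) M)) := by
  intro v
  rw [Bundle.contMDiffAt_totalSpace]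
  refine ⟨contMDiffAt_const, ?_⟩
  have hz : z ∈ (trivializationAt E (TangentSpace 𝓘(ℝ, E)) z).baseSet :=
    FiberBundle.mem_baseSet_trivializationAt' z
  have h2 := ((trivializationAt E (TangentSpace 𝓘(ℝ, E)) z).continuousLinearMapAt ℝ
    z).contMDiff.contMDiffAt (x := v) (n := ∞)
  refine h2.congr_of_eventuallyEq (Filter.Eventually.of_forall fun w => ?_)
  simp only [Trivialization.continuousLinearMapAt_apply,
    Trivialization.linearMapAt_apply, if_pos hz]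

/-- smooth maps to one tangent space are smooth fields along the constant map -/
theorem smV_const (q : M) {w : V → TangentSpace 𝓘(ℝ, E) q} {s : V} (hw : ContDiffAt ℝ ∞ w s) :
    SmV (fun _ => q) w s :=
  ((contMDiff_fiber q).contMDiffAt).comp s hw.contMDiffAt

/-- the logarithm of the foot point at `q` -/
def yl (e : ∀ x : M, TangentSpace 𝓘(ℝ, E) x → M) (q : M) (v : UT E M) : TangentSpace 𝓘(ℝ, E) q :=
  logMap e q (foot v)

/-- the derivative of the logarithm along `v` -/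
def al (e : ∀ x : M, TangentSpace 𝓘(ℝ, E) x → M) (q : M) (v : UT E M) : TangentSpace 𝓘(ℝ, E) q :=
  deriv (fun r : ℝ => logMap e q (gm e (v, r))) 0

variable [CompactSpace M] [ConnectedSpace M] [IsRiemannianManifold 𝓘(ℝ, E) M]

section

variable (F : Facts e) {D : ℝ} (hB : InjGE e D) {q : M}

include F hB

/-- the logarithm along plots -/
theorem contDiffAt_log {f : V → M} {s : V} (hf : ContMDiffAt 𝓘(ℝ, V) 𝓘(ℝ, E) ∞ f s)
    (hd : dist q (f s) < D) : ContDiffAt ℝ ∞ (fun s => logMap e q (f s)) s :=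
  ((contMDiffAt_logMap_of_dist F hB hd).comp s hf).contDiffAt

variable {E' : Type} [NormedAddCommGroup E'] [NormedSpace ℝ E'] [FiniteDimensional ℝ E']
  {u : E' → UT E M} {x : E'}

theorem sm_yl (hu : (dUT E M).At u x) (hd : dist q (foot (u x)) < D) :
    Sm (fun s => yl e q (u s)) x := by
  have h1 : ∀ᶠ s in 𝓝 x, ContMDiffAt 𝓘(ℝ, E') 𝓘(ℝ, E) ∞ (fun s => foot (u s)) s := map_foot hu
  have h2 : ∀ᶠ s in 𝓝 x, dist q (foot (u s)) < D :=
    (continuousAt_const.dist h1.self_of_nhds.continuousAt).eventually (gt_mem_nhds hd)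
  filter_upwards [h1, h2] with s g1 g2
  exact contDiffAt_log F hB g1 g2

theorem sm_al (hu : (dUT E M).At u x) (hd : dist q (foot (u x)) < D) :
    Sm (fun s => al e q (u s)) x := by
  set G : E' × ℝ → TangentSpace 𝓘(ℝ, E) q := fun p => logMap e q (gm e (u p.1, p.2)) with hG
  have h1 : ∀ᶠ p in 𝓝 ((x, 0) : E' × ℝ), ContMDiffAt 𝓘(ℝ, E' × ℝ) 𝓘(ℝ, E) ∞
      (fun p : E' × ℝ => gm e (u p.1, p.2)) p := by
    have h2 := map_gm F (u := fun p : E' × ℝ => (u p.1, p.2)) (x := (x, 0))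
      ⟨(dUT E M).comp (u := u) (g := fun p : E' × ℝ => p.1) hu (Sm.of_contDiff contDiff_fst _),
        Sm.of_contDiff contDiff_snd _⟩
    exact h2
  have h2 : ∀ᶠ p in 𝓝 ((x, 0) : E' × ℝ), dist q (gm e (u p.1, p.2)) < D := by
    refine (continuousAt_const.dist h1.self_of_nhds.continuousAt).eventually (gt_mem_nhds ?_)
    simp only
    rw [gm_zero F]
    exact hd
  have h3 : ∀ᶠ p in 𝓝 ((x, 0) : E' × ℝ), ContDiffAt ℝ ∞ G p := by
    filter_upwards [h1, h2] with p g1 g2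
    exact contDiffAt_log F hB g1 g2
  have h4 : Sm (fderiv ℝ G) (x, 0) := Sm.fderiv (f := G) h3
  have h5 : Sm (fun s : E' => ((s, 0) : E' × ℝ)) x :=
    Sm.of_contDiff (contDiff_id.prodMk contDiff_const) _
  have h6 : Sm (fun s : E' => fderiv ℝ G (s, 0)) x := Sm.comp (f := fderiv ℝ G) h4 h5
  have h7 : Sm (fun s : E' => fderiv ℝ G (s, 0) ((0, 1) : E' × ℝ)) x := by
    filter_upwards [h6] with s hs
    exact hs.clm_apply contDiffAt_const
  refine h7.congr ?_
  filter_upwards [(h5.continuousAt.eventually h3 : ∀ᶠ s in 𝓝 x, ContDiffAt ℝ ∞ G (s, 0))]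
    with s hs
  have h8 : HasDerivAt (fun r : ℝ => ((s, r) : E' × ℝ)) (0, 1) 0 :=
    (hasDerivAt_const 0 s).prodMk (hasDerivAt_id 0)
  have h9 := (hs.differentiableAt (by simp)).hasFDerivAt.comp_hasDerivAt (0 : ℝ) h8
  exact h9.deriv.symm

/-- the differential of the exponential map sends `al` to `v` -/
theorem dE_al {v : UT E M} (hd : dist q (foot v) < D) : dE e q (yl e q v) (al e q v) = vec' v := by
  have h1 : ContMDiffAt 𝓘(ℝ, ℝ) 𝓘(ℝ, E) ∞ (fun r : ℝ => gm e (v, r)) 0 := by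
    have h2 := map_gm F (u := fun r : ℝ => (v, r)) (x := 0)
      ⟨H583.at_const v 0, Sm.of_contDiff contDiff_id _⟩
    have h3 : ∀ᶠ r in 𝓝 (0 : ℝ), ContMDiffAt 𝓘(ℝ, ℝ) 𝓘(ℝ, E) ∞ (fun r : ℝ => gm e (v, r)) r := h2
    exact h3.self_of_nhds
  have h0 : gm e (v, 0) = foot v := gm_zero F v
  have h2 : ∀ᶠ r in 𝓝 (0 : ℝ), dist q (gm e (v, r)) < D := by
    refine (continuousAt_const.dist h1.continuousAt).eventually (gt_mem_nhds ?_)
    simp only
    rw [h0]
    exact hd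
  have h3 : ContDiffAt ℝ ∞ (fun r : ℝ => logMap e q (gm e (v, r))) 0 :=
    contDiffAt_log F hB h1 h2.self_of_nhds
  have h4 : HasDerivAt (fun r : ℝ => logMap e q (gm e (v, r))) (al e q v) 0 :=
    (h3.differentiableAt (by simp)).hasDerivAt
  have h5 := mfderiv_exp_curve F.isExp q h4
  have h6 : (fun r : ℝ => e q (logMap e q (gm e (v, r)))) =ᶠ[𝓝 0] fun r => gm e (v, r) := by
    filter_upwards [h2] with r hr
    exact (exp_logMap F hB hr).1
  have h7 := h6.mfderiv_eq (I := 𝓘(ℝ, ℝ)) (I' := 𝓘(ℝ, E))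
  have h8 : (mfderiv 𝓘(ℝ, ℝ) 𝓘(ℝ, E) (fun r => gm e (v, r)) 0 (1 : ℝ) : E) =
      vel e (foot v) (vec' v) 0 := mfderiv_gam F.isExp (foot v) (vec' v) 0
  have h9 : (mfderiv 𝓘(ℝ, ℝ) 𝓘(ℝ, E) (fun r : ℝ => e q (logMap e q (gm e (v, r)))) 0 (1 : ℝ) : E) =
      (mfderiv 𝓘(ℝ, ℝ) 𝓘(ℝ, E) (fun r => gm e (v, r)) 0 (1 : ℝ) : E) :=
    congrArg (fun L : ℝ →L[ℝ] E => L (1 : ℝ)) h7
  have h10 : dE e q (yl e q v) (al e q v) =
      dE e q (logMap e q (gm e (v, 0)) : E) (al e q v) := by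
    rw [h0]
    rfl
  rw [h10]
  refine (h5.symm.trans (h9.trans h8)).trans ?_
  exact vel_zero F.isExp _ _

theorem al_ne_zero {v : UT E M} (hd : dist q (foot v) < D) : al e q v ≠ 0 := by
  intro h
  have h1 := dE_al F hB hd
  rw [h] at h1
  have h2 : dE e q (yl e q v) (0 : E) = 0 := refl_dE_zero q _
  have h3 : vec' v = 0 := h1.symm.trans h2
  have h4 := nm_vec' v
  rw [h3] at h4
  have h5 : nm (E := E) (foot v) 0 = 0 := norm_zero
  rw [h5] at h4
  exact zero_ne_one h4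

end

/-! ### the path -/

/-- the foot of the path -/
def pf (e : ∀ x : M, TangentSpace 𝓘(ℝ, E) x → M) (q : M) (v : UT E M) (t : ℝ) : M :=
  e q (t • yl e q v)

/-- the raw vector of the path -/
def pv (e : ∀ x : M, TangentSpace 𝓘(ℝ, E) x → M) (q : M) (u₀ : TangentSpace 𝓘(ℝ, E) q)
    (v : UT E M) (t : ℝ) : TangentSpace 𝓘(ℝ, E) (pf e q v t) :=
  dE (E := E) e q (t • yl e q v : TangentSpace 𝓘(ℝ, E) q)
    ((1 - t) • u₀ + t • al e q v : TangentSpace 𝓘(ℝ, E) q)

/-- the admissible unit vectors -/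
structure Ok (e : ∀ x : M, TangentSpace 𝓘(ℝ, E) x → M) (D : ℝ) (q : M)
    (u₀ : TangentSpace 𝓘(ℝ, E) q) (v : UT E M) : Prop where
  dist_lt : dist q (foot v) < D
  ne : ∀ t ∈ Icc (0 : ℝ) 1, (1 - t) • u₀ + t • al e q v ≠ 0

section

variable (F : Facts e) {D : ℝ} (hB : InjGE e D) {q : M} {u₀ : TangentSpace 𝓘(ℝ, E) q}

include F hB

theorem pv_ne_zero {v : UT E M} (h : Ok e D q u₀ v) {t : ℝ} (ht : t ∈ Icc (0 : ℝ) 1) :
    pv e q u₀ v t ≠ 0 := by
  intro h0
  refine h.ne t ht ?_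
  refine dE_injective F hB (x := q) (v := (t • yl e q v : TangentSpace 𝓘(ℝ, E) q)) ?_ h0
  change ‖t • yl e q v‖ < D
  rw [norm_smul, Real.norm_of_nonneg ht.1]
  have h1 : ‖yl e q v‖ = dist q (foot v) := (exp_logMap F hB h.dist_lt).2
  rw [h1]
  calc t * dist q (foot v) ≤ 1 * dist q (foot v) := by
        exact mul_le_mul_of_nonneg_right ht.2 dist_nonneg
    _ < D := by rw [one_mul]; exact h.dist_lt

end

/-- the unit vector of the path -/
def pu (e : ∀ x : M, TangentSpace 𝓘(ℝ, E) x → M) (q : M) (u₀ : TangentSpace 𝓘(ℝ, E) q)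
    (v : UT E M) (t : ℝ) : TangentSpace 𝓘(ℝ, E) (pf e q v t) :=
  ‖pv e q u₀ v t‖⁻¹ • pv e q u₀ v t

theorem norm_pu {q : M} {u₀ : TangentSpace 𝓘(ℝ, E) q} {v : UT E M} {t : ℝ}
    (h : pv e q u₀ v t ≠ 0) : ‖pu e q u₀ v t‖ = 1 := by
  rw [pu, norm_smul, norm_inv, norm_norm, inv_mul_cancel₀ (norm_ne_zero_iff.2 h)]

open Classical in
/-- the path from `u₀` (at `t = 0`) to `v` (at `t = 1`) -/
def path (e : ∀ x : M, TangentSpace 𝓘(ℝ, E) x → M) (q : M) (u₀ : TangentSpace 𝓘(ℝ, E) q)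
    (p : UT E M × ℝ) : UT E M :=
  if h : pv e q u₀ p.1 p.2 ≠ 0 then
    mk (E := E) (pf e q p.1 p.2) (pu e q u₀ p.1 p.2) (norm_pu h) else p.1

theorem path_of {q : M} {u₀ : TangentSpace 𝓘(ℝ, E) q} {p : UT E M × ℝ}
    (h : pv e q u₀ p.1 p.2 ≠ 0) :
    path e q u₀ p = mk (E := E) (pf e q p.1 p.2) (pu e q u₀ p.1 p.2) (norm_pu h) := dif_pos h

section

variable (F : Facts e) {D : ℝ} (hB : InjGE e D) {q : M} {u₀ : TangentSpace 𝓘(ℝ, E) q}

include F hB

theorem path_one {v : UT E M} (h : Ok e D q u₀ v) : path e q u₀ (v, 1) = v := by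
  have h1 : pf e q v 1 = foot v := by
    unfold pf
    rw [one_smul]
    exact (exp_logMap F hB h.dist_lt).1
  have h2 : (pv e q u₀ v 1 : E) = vec' v := by
    have h3 : (1 : ℝ) • yl e q v = yl e q v := one_smul _ _
    have h4 : (1 - (1 : ℝ)) • u₀ + (1 : ℝ) • al e q v = al e q v := by
      rw [sub_self, zero_smul, zero_add, one_smul]
    unfold pv
    rw [h3, h4]
    exact dE_al F hB h.dist_lt
  have h3 : ‖pv e q u₀ v 1‖ = 1 := by
    change nm (E := E) (pf e q v 1) (pv e q u₀ v 1) = 1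
    rw [h2, h1]
    exact nm_vec' v
  have h4 : pu e q u₀ v 1 = pv e q u₀ v 1 := by
    unfold pu
    rw [h3, inv_one, one_smul]
  have h5 : (pu e q u₀ v 1 : E) = vec' v := by
    rw [h4]
    exact h2
  exact (path_of (p := (v, 1)) (pv_ne_zero F hB h (right_mem_Icc.2 zero_le_one))).trans
    (mk_congr h1 h5)

theorem path_zero (hu₀ : ‖u₀‖ = 1) {v : UT E M} (h : Ok e D q u₀ v) :
    path e q u₀ (v, 0) = mk (E := E) q u₀ hu₀ := by
  have h1 : pf e q v 0 = q := by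
    unfold pf
    rw [zero_smul]
    exact exp_zero_eq F.isExp q
  have h2 : (pv e q u₀ v 0 : E) = u₀ := by
    have h3 : (0 : ℝ) • yl e q v = 0 := zero_smul _ _
    have h4 : (1 - (0 : ℝ)) • u₀ + (0 : ℝ) • al e q v = u₀ := by
      rw [sub_zero, zero_smul, add_zero, one_smul]
    unfold pv
    rw [h3, h4]
    exact dE_zero_base F.isExp q u₀
  have h3 : ‖pv e q u₀ v 0‖ = 1 := by
    change nm (E := E) (pf e q v 0) (pv e q u₀ v 0) = 1
    rw [h2, h1]
    exact hu₀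
  have h4 : pu e q u₀ v 0 = pv e q u₀ v 0 := by
    unfold pu
    rw [h3, inv_one, one_smul]
  have h5 : (pu e q u₀ v 0 : E) = u₀ := by
    rw [h4]
    exact h2
  exact (path_of (p := (v, 0)) (pv_ne_zero F hB h (left_mem_Icc.2 zero_le_one))).trans
    (mk_congr h1 h5)

variable {E' : Type} [NormedAddCommGroup E'] [NormedSpace ℝ E'] [FiniteDimensional ℝ E']

/-- **the path is smooth along plots** -/
theorem at_path {u : E' → UT E M} {τ : E' → ℝ} {x : E'} (hu : (dUT E M).At u x) (hτ : Sm τ x)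
    (h : Ok e D q u₀ (u x)) (hτx : τ x ∈ Icc (0 : ℝ) 1) :
    (dUT E M).At (fun s => path e q u₀ (u s, τ s)) x := by
  have h1 := sm_yl F hB hu h.dist_lt
  have h2 := sm_al F hB hu h.dist_lt
  have h3 : ∀ᶠ s in 𝓝 x, SmV (fun _ => q) (fun s => τ s • yl e q (u s)) s := by
    filter_upwards [h1, hτ] with s g1 g2
    exact smV_const q (g2.smul g1)
  have h4 : ∀ᶠ s in 𝓝 x, SmV (fun _ => q) (fun s => (1 - τ s) • u₀ + τ s • al e q (u s)) s := by
    filter_upwards [h2, hτ] with s g1 g2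
    exact smV_const q (((contDiffAt_const.sub g2).smul contDiffAt_const).add (g2.smul g1))
  have h5 : ∀ᶠ s in 𝓝 x, SmV (fun s => pf e q (u s) (τ s)) (fun s => pv e q u₀ (u s) (τ s)) s := by
    filter_upwards [eventually_eventually_nhds.2 h3, eventually_eventually_nhds.2 h4] with s g1 g2
    exact H583.smV_dE F.isExp g1 g2
  have h6 : ∀ᶠ s in 𝓝 x, pv e q u₀ (u s) (τ s) ≠ 0 := by
    have h7 := h5.self_of_nhds.norm_sq.continuousAt
    have h8 : ‖pv e q u₀ (u x) (τ x)‖ ^ 2 ≠ 0 :=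
      pow_ne_zero 2 (norm_ne_zero_iff.2 (pv_ne_zero F hB h hτx))
    filter_upwards [h7.eventually_ne h8] with s hs h0
    rw [h0, norm_zero] at hs
    exact hs (by norm_num)
  rw [at_iff]
  filter_upwards [h5, h6, eventually_eventually_nhds.2 h6] with s g1 g2 g3
  refine ContMDiffAt.congr_of_eventuallyEq (smV_normalize g1 g2) ?_
  filter_upwards [g3] with s' hs'
  have h7 := path_of (e := e) (p := (u s', τ s')) hs'
  exact tb_congr (by rw [h7]; rfl) (by rw [h7]; rfl)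

end

end

end Vale.Agent.P231.S2I3
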