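import Vale.Agent.P231.WR.Proj
import Vale.Agent.P231.H583.Field
import Vale.Agent.P231.WF.Dim

/-!
# P231, stage 2, block S2-I (I3), part 1: the space of orthonormal frames of `L`, Gram–Schmidt
-/

set_option maxSynthPendingDepth 3
set_option linter.unusedSectionVars false
set_option linter.unusedVariables false

open Bundle Manifold Set Filter Module
open scoped ContDiff Manifold Topology

namespace Vale.Agent.P231.S2I3

noncomputable section

open Vale.Agent.P234 Vale.Agent.P231 Vale.Agent.P231.Fm Vale.Agent.P231.W Vale.Agent.P231.WR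
open Vale.Agent.P231.H775 InnerProductSpace

variable {E : Type*} [NormedAddCommGroup E] [NormedSpace ℝ E]
  {M : Type*} [MetricSpace M] [ChartedSpace E M]
  [RiemannianBundle (fun x : M => TangentSpace 𝓘(ℝ, E) x)]
  {e : ∀ x : M, TangentSpace 𝓘(ℝ, E) x → M}
  [FiniteDimensional ℝ E] [IsManifold 𝓘(ℝ, E) ∞ M]
  [IsContMDiffRiemannianBundle 𝓘(ℝ, E) ∞ E (fun x : M => TangentSpace 𝓘(ℝ, E) x)]
  {V : Type*} [NormedAddCommGroup V] [NormedSpace ℝ V] {k : ℕ}

/-! ### Gram–Schmidt along smooth families -/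

theorem smV_gs {f : V → M} {a : ∀ s, Fin k → TangentSpace 𝓘(ℝ, E) (f s)} {s₀ : V}
    (ha : ∀ i, SmV f (fun s => a s i) s₀) (hl : LinearIndependent ℝ (a s₀)) (i : Fin k) :
    SmV f (fun s => gramSchmidt ℝ (a s) i) s₀ := by
  induction i using WellFoundedLT.induction with
  | ind n ih =>
    have h1 : ∀ i ∈ Finset.Iio n, SmV f (fun s => (-(inner ℝ (gramSchmidt ℝ (a s) i) (a s n) /
        ‖gramSchmidt ℝ (a s) i‖ ^ 2)) • gramSchmidt ℝ (a s) i) s₀ := by
      intro i hi
      have h2 := ih i (Finset.mem_Iio.1 hi)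
      refine SmV.smul (ContDiffAt.neg (ContDiffAt.div (h2.inner (ha n)) h2.norm_sq ?_)) h2
      exact pow_ne_zero 2 (norm_ne_zero_iff.2 (gramSchmidt_ne_zero i hl))
    have h2 := SmV.sum (Finset.Iio n) (ha n).base h1
    have h3 := (ha n).add h2
    refine h3.congr (Eventually.of_forall fun s => ?_)
    have h4 := gramSchmidt_def'' ℝ (a s) n
    have h5 : ∀ S : TangentSpace 𝓘(ℝ, E) (f s), a s n = gramSchmidt ℝ (a s) n + S →
      a s n + -S = gramSchmidt ℝ (a s) n := fun S h => by rw [h]; abel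
    rw [← h5 _ h4, ← Finset.sum_neg_distrib]
    congr 1
    refine Finset.sum_congr rfl fun i _ => ?_
    rw [neg_smul]
    rfl

theorem smV_gsn {f : V → M} {a : ∀ s, Fin k → TangentSpace 𝓘(ℝ, E) (f s)} {s₀ : V}
    (ha : ∀ i, SmV f (fun s => a s i) s₀) (hl : LinearIndependent ℝ (a s₀)) (i : Fin k) :
    SmV f (fun s => gramSchmidtNormed ℝ (a s) i) s₀ :=
  WF.smV_normalize (smV_gs ha hl i) (gramSchmidt_ne_zero i hl)

/-- the Gram matrix is smooth -/
theorem det_gram_contDiffAt {f : V → M} {a : ∀ s, Fin k → TangentSpace 𝓘(ℝ, E) (f s)} {s₀ : V}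
    (ha : ∀ i, SmV f (fun s => a s i) s₀) :
    ContDiffAt ℝ ∞ (fun s => (Matrix.gram ℝ (a s)).det) s₀ := by
  simp only [Matrix.det_apply]
  refine ContDiffAt.sum fun σ _ => ContDiffAt.const_smul _ (contDiffAt_prod fun i _ => ?_)
  exact (ha _).inner (ha _)

/-- linear independence is an open condition along smooth families -/
theorem li_eventually {f : V → M} {a : ∀ s, Fin k → TangentSpace 𝓘(ℝ, E) (f s)} {s₀ : V}
    (ha : ∀ i, SmV f (fun s => a s i) s₀) (hl : LinearIndependent ℝ (a s₀)) :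
    ∀ᶠ s in 𝓝 s₀, LinearIndependent ℝ (a s) := by
  have h1 := (det_gram_contDiffAt ha).continuousAt
  have h2 : (Matrix.gram ℝ (a s₀)).det ≠ 0 := Matrix.det_gram_ne_zero_iff_linearIndependent.2 hl
  filter_upwards [h1.eventually_ne h2] with s hs
  exact Matrix.det_gram_ne_zero_iff_linearIndependent.1 hs

/-! ### the space of frames -/

/-- orthonormal `k`-tuples in `L_v` -/
def Fr (e : ∀ x : M, TangentSpace 𝓘(ℝ, E) x → M) (D : ℝ) (k : ℕ) : Type _ :=
  {p : UT E M × (Fin k → UT E M) // IsLF e D p.1 p.2}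

/-- constructor -/
def Fr.mk' {D : ℝ} (v : UT E M) (W : Fin k → UT E M) (h : IsLF e D v W) : Fr e D k := ⟨(v, W), h⟩

/-- the base vector -/
def Fr.v {D : ℝ} (p : Fr e D k) : UT E M := p.1.1

/-- the vectors of the frame -/
def Fr.w {D : ℝ} (p : Fr e D k) (i : Fin k) : UT E M := p.1.2 i

theorem Fr.isLF {D : ℝ} (p : Fr e D k) : IsLF e D p.v (fun i => p.w i) := p.2

theorem Fr.foot_w {D : ℝ} (p : Fr e D k) (i : Fin k) : foot (p.w i) = foot p.v :=
  (p.isLF.isL i).foot_eq

theorem Fr.ext' {D : ℝ} {p q : Fr e D k} (hv : p.v = q.v) (hw : ∀ i, p.w i = q.w i) : p = q :=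
  Subtype.ext (Prod.ext hv (funext hw))

/-- the diffeology of the space of frames -/
def dFr (e : ∀ x : M, TangentSpace 𝓘(ℝ, E) x → M) (D : ℝ) (k : ℕ) : Dif (Fr e D k) where
  At u x := (dUT E M).At (fun y => (u y).v) x ∧ ∀ i, (dUT E M).At (fun y => (u y).w i) x
  open' h := by
    filter_upwards [(dUT E M).open' h.1, eventually_all.2 fun i => (dUT E M).open' (h.2 i)]
      with y h1 h2 using ⟨h1, h2⟩
  congr h hv := ⟨(dUT E M).congr h.1 (hv.fun_comp Fr.v),
    fun i => (dUT E M).congr (h.2 i) (hv.fun_comp (fun p => Fr.w p i))⟩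
  comp h hg := ⟨(dUT E M).comp h.1 hg, fun i => (dUT E M).comp (h.2 i) hg⟩

theorem map_Frv {D : ℝ} : (dFr e D k).Map (dUT E M) Fr.v := fun h => h.1

theorem map_Frw {D : ℝ} (i : Fin k) : (dFr e D k).Map (dUT E M) (fun p => p.w i) := fun h => h.2 i

/-- the vector of a frame with index `i`, as a point of `Pr` -/
def Fr.pr {D : ℝ} (i : Fin k) (p : Fr e D k) : Pr e D := ⟨(p.v, p.w i), p.isLF.isL i⟩

@[simp] theorem Fr.pr_v {D : ℝ} (i : Fin k) (p : Fr e D k) : (p.pr i).v = p.v := rfl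

@[simp] theorem Fr.pr_w {D : ℝ} (i : Fin k) (p : Fr e D k) : (p.pr i).w = p.w i := rfl

theorem map_Frpr {D : ℝ} (i : Fin k) : (dFr e D k).Map (dPr e D) (Fr.pr i) :=
  fun h => ⟨h.1, h.2 i⟩

/-! ### the frame obtained from raw vectors by Gram–Schmidt -/

/-- raw vectors as tangent vectors -/
def rv' (x : M) (a : Fin k → E) (i : Fin k) : TangentSpace 𝓘(ℝ, E) x := a i

/-- the raw Gram–Schmidt vectors -/
def gsv' (x : M) (a : Fin k → E) (i : Fin k) : TangentSpace 𝓘(ℝ, E) x :=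
  gramSchmidtNormed ℝ (rv' x a) i

/-- the raw Gram–Schmidt vectors -/
def gsv (x : M) (a : Fin k → E) (i : Fin k) : E := gsv' x a i

/-- admissible families of raw vectors -/
structure Adm (e : ∀ x : M, TangentSpace 𝓘(ℝ, E) x → M) (D : ℝ) (v : UT E M) (a : Fin k → E) :
    Prop where
  li : LinearIndependent ℝ (rv' (foot v) a)
  mem : ∀ i, rv' (foot v) a i ∈ Lf e D v

theorem Adm.norm {D : ℝ} {v : UT E M} {a : Fin k → E} (h : Adm e D v a) (i : Fin k) :
    nm (foot v) (gsv (foot v) a i) = 1 := gramSchmidtNormed_unit_length i h.li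

theorem Adm.gs_mem {D : ℝ} {v : UT E M} {a : Fin k → E} (h : Adm e D v a) (i : Fin k) :
    gsv' (E := E) (foot v) a i ∈ Lf e D v := by
  have h1 : gramSchmidt ℝ (rv' (foot v) a) i ∈ Submodule.span ℝ (range (rv' (foot v) a)) := by
    rw [← span_gramSchmidt]
    exact Submodule.subset_span (mem_range_self i)
  have h2 : Submodule.span ℝ (range (rv' (foot v) a)) ≤ Lf e D v := by
    rw [Submodule.span_le]
    rintro _ ⟨j, rfl⟩
    exact h.mem j
  exact Submodule.smul_mem _ _ (h2 h1)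

variable [CompactSpace M] [ConnectedSpace M] [IsRiemannianManifold 𝓘(ℝ, E) M]

/-- the frame of an admissible family -/
def gsF (F : Facts e) {D : ℝ} (hD : 0 < D) (hB : InjGE e D) (hdiam : ∀ p q : M, dist p q ≤ D)
    {v : UT E M} {a : Fin k → E} (h : Adm e D v a) : Fr e D k :=
  Fr.mk' v (fun i => mk (E := E) (foot v) (gsv (E := E) (foot v) a i) (h.norm i))
    ⟨fun i => (isL_iff F hD hB hdiam (h.norm i)).1 (h.gs_mem i), fun i j hij => by
      have h1 := (gramSchmidtNormed_orthonormal h.li).2 hij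
      exact h1⟩

@[simp] theorem gsF_v (F : Facts e) {D : ℝ} (hD : 0 < D) (hB : InjGE e D)
    (hdiam : ∀ p q : M, dist p q ≤ D) {v : UT E M} {a : Fin k → E} (h : Adm e D v a) :
    (gsF F hD hB hdiam h).v = v := rfl

@[simp] theorem gsF_w (F : Facts e) {D : ℝ} (hD : 0 < D) (hB : InjGE e D)
    (hdiam : ∀ p q : M, dist p q ≤ D) {v : UT E M} {a : Fin k → E} (h : Adm e D v a) (i : Fin k) :
    (gsF F hD hB hdiam h).w i = mk (foot v) (gsv (foot v) a i) (h.norm i) := rfl

/-- Gram–Schmidt does not change orthonormal families -/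
theorem gsv_frame {D : ℝ} (p : Fr e D k) (i : Fin k) :
    gsv (foot p.v) (fun i => vec' (p.w i)) i = vec' (p.w i) := by
  have hn : ∀ i, ‖rv' (foot p.v) (fun i => vec' (p.w i)) i‖ = 1 := fun i =>
    (p.isLF.isL i).mem_Lk.1
  have h1 : Pairwise (fun i j => inner ℝ (rv' (foot p.v) (fun i => vec' (p.w i)) i)
      (rv' (foot p.v) (fun i => vec' (p.w i)) j) = 0) := fun i j hij => p.isLF.orth i j hij
  have h2 := gramSchmidt_of_orthogonal ℝ h1
  have h3 : gsv' (foot p.v) (fun i => vec' (p.w i)) i = rv' (foot p.v) (fun i => vec' (p.w i)) i := by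
    unfold gsv' gramSchmidtNormed
    rw [h2, hn i]
    simp only [RCLike.ofReal_real_eq_id, id_eq, inv_one, one_smul]
  exact h3

open Classical in
/-- the total version -/
def gsT (F : Facts e) {D : ℝ} (hD : 0 < D) (hB : InjGE e D) (hdiam : ∀ p q : M, dist p q ≤ D)
    {l : ℕ} (hP : ∀ x y : M, dist x y = D → finrank ℝ (H775.Pl e D x y) = l + 1)
    (v : UT E M) (a : Fin l → E) : Fr e D l :=
  if h : Adm e D v a then gsF F hD hB hdiam h else
    Fr.mk' v (exists_isLF F hD hB hdiam hP v).choose (exists_isLF F hD hB hdiam hP v).choose_spec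

section GsT

variable (F : Facts e) {D : ℝ} (hD : 0 < D) (hB : InjGE e D) (hdiam : ∀ p q : M, dist p q ≤ D)
    {l : ℕ} (hP : ∀ x y : M, dist x y = D → finrank ℝ (H775.Pl e D x y) = l + 1)

@[simp] theorem gsT_v (v : UT E M) (a : Fin l → E) : (gsT F hD hB hdiam hP v a).v = v := by
  unfold gsT
  by_cases h : Adm e D v a
  · rw [dif_pos h]
    rfl
  · rw [dif_neg h]
    rfl

theorem gsT_of {v : UT E M} {a : Fin l → E} (h : Adm e D v a) :
    gsT F hD hB hdiam hP v a = gsF F hD hB hdiam h := dif_pos h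

/-- the frame itself -/
theorem adm_frame (p : Fr e D k) : Adm e D p.v (fun i => vec' (p.w i)) := by
  refine ⟨?_, fun i => (p.isLF.isL i).mem_Lf⟩
  have h1 : Orthonormal ℝ (rv' (foot p.v) (fun i => vec' (p.w i))) :=
    ⟨fun i => (p.isLF.isL i).mem_Lk.1, fun i j hij => p.isLF.orth i j hij⟩
  exact h1.linearIndependent

theorem gsT_frame (p : Fr e D l) : gsT F hD hB hdiam hP p.v (fun i => vec' (p.w i)) = p := by
  rw [gsT_of F hD hB hdiam hP (adm_frame p)]
  refine Fr.ext' rfl fun i => ?_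
  rw [gsF_w, ← mk_eta (p.w i)]
  exact mk_congr (p.foot_w i).symm (gsv_frame p i)

variable {E' : Type} [NormedAddCommGroup E'] [NormedSpace ℝ E'] [FiniteDimensional ℝ E']

/-- admissibility along plots is an open condition -/
theorem adm_eventually {u : E' → UT E M} {a : E' → Fin k → E} {x : E'}
    (ha : ∀ i, (dTM E M).At (fun s => tb (foot (u s)) (a s i)) x)
    (hm : ∀ᶠ s in 𝓝 x, ∀ i, rv' (foot (u s)) (a s) i ∈ Lf e D (u s))
    (h : LinearIndependent ℝ (rv' (foot (u x)) (a x))) : ∀ᶠ s in 𝓝 x, Adm e D (u s) (a s) := by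
  have h1 : ∀ i, SmV (fun s => foot (u s)) (fun s => rv' (foot (u s)) (a s) i) x := fun i =>
    (smV_iff_tb.1 (ha i)).self_of_nhds
  filter_upwards [li_eventually h1 h, hm] with s h2 h3 using ⟨h2, h3⟩

/-- **smoothness of the frames obtained by Gram–Schmidt** -/
theorem at_gsT {u : E' → UT E M} {a : E' → Fin l → E} {x : E'} (hu : (dUT E M).At u x)
    (ha : ∀ i, (dTM E M).At (fun s => tb (foot (u s)) (a s i)) x)
    (hm : ∀ᶠ s in 𝓝 x, ∀ i, rv' (foot (u s)) (a s) i ∈ Lf e D (u s))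
    (h : LinearIndependent ℝ (rv' (foot (u x)) (a x))) :
    (dFr e D l).At (fun s => gsT F hD hB hdiam hP (u s) (a s)) x := by
  have hA := adm_eventually ha hm h
  have h1 : ∀ i, ∀ᶠ s in 𝓝 x, SmV (fun s => foot (u s)) (fun s => rv' (foot (u s)) (a s) i) s :=
    fun i => smV_iff_tb.1 (ha i)
  refine ⟨?_, fun i => ?_⟩
  · simp only [gsT_v]
    exact hu
  · rw [at_iff]
    filter_upwards [eventually_all.2 h1, hA, eventually_eventually_nhds.2 hA] with s h2 h3 h4
    refine ContMDiffAt.congr_of_eventuallyEq (smV_gsn h2 h3.li i) ?_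
    filter_upwards [h4] with s' h5
    have h6 := gsT_of F hD hB hdiam hP h5
    exact tb_congr (by rw [h6]; rfl) (by rw [h6]; rfl)

end GsT

end

end Vale.Agent.P231.S2I3
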