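import Vale.Agent.P231.S2I3.Gs

/-!
# P231, stage 2, block S2-I: Gram–Schmidt and triangular changes of families
-/

set_option maxSynthPendingDepth 3
set_option linter.unusedSectionVars false
set_option linter.unusedVariables false

open Set Filter Module InnerProductSpace Submodule

namespace Vale.Agent.P231.S2I3

noncomputable section

section Abs

variable {T : Type*} [NormedAddCommGroup T] [InnerProductSpace ℝ T] {k : ℕ}

/-- `f n - gramSchmidt f n` is in the span of the preceding vectors -/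
theorem sub_gs_mem (f : Fin k → T) (n : Fin k) :
    f n - gramSchmidt ℝ f n ∈ span ℝ (f '' Set.Iio n) := by
  rw [← span_gramSchmidt_Iio]
  have h := gramSchmidt_def' ℝ f n
  have h1 : f n - gramSchmidt ℝ f n =
      ∑ i ∈ Finset.Iio n, (ℝ ∙ gramSchmidt ℝ f i).starProjection (f n) := by
    rw [sub_eq_iff_eq_add]
    rw [add_comm]
    exact h
  rw [h1]
  refine Submodule.sum_mem _ fun i hi => ?_
  rw [Submodule.starProjection_singleton]
  exact Submodule.smul_mem _ _ (subset_span ⟨i, Finset.mem_Iio.1 hi, rfl⟩)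

/-- the Gram–Schmidt vectors are orthogonal to the preceding vectors -/
theorem gs_orth_span (f : Fin k → T) {n : Fin k} {z : T} (hz : z ∈ span ℝ (f '' Set.Iio n)) :
    inner ℝ (gramSchmidt ℝ f n) z = 0 := by
  induction hz using Submodule.span_induction with
  | mem x hx =>
    obtain ⟨i, hi, rfl⟩ := hx
    exact gramSchmidt_inv_triangular ℝ f hi
  | zero => exact inner_zero_right _
  | add x y _ _ hx hy => rw [inner_add_right, hx, hy, add_zero]
  | smul c x _ hx => rw [inner_smul_right, hx, mul_zero]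

/-- triangular changes of the family -/
structure Tri (a b : Fin k → T) (c : Fin k → ℝ) : Prop where
  pos : ∀ i, 0 < c i
  mem : ∀ i, b i - c i • a i ∈ span ℝ (a '' Set.Iio i)

theorem Tri.span_le {a b : Fin k → T} {c : Fin k → ℝ} (h : Tri a b c) (i : Fin k) :
    a i ∈ span ℝ (b '' Set.Iic i) := by
  induction i using WellFoundedLT.induction with
  | ind n ih =>
    have h1 : span ℝ (a '' Set.Iio n) ≤ span ℝ (b '' Set.Iic n) := by
      rw [Submodule.span_le]
      rintro _ ⟨j, hj, rfl⟩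
      exact span_mono (image_mono (Set.Iic_subset_Iic.2 (le_of_lt hj))) (ih j hj)
    have h2 : c n • a n = b n - (b n - c n • a n) := by abel
    have h3 : c n • a n ∈ span ℝ (b '' Set.Iic n) := by
      rw [h2]
      exact Submodule.sub_mem _ (subset_span ⟨n, le_refl n, rfl⟩) (h1 (h.mem n))
    have h4 := Submodule.smul_mem _ (c n)⁻¹ h3
    rw [smul_smul, inv_mul_cancel₀ (h.pos n).ne', one_smul] at h4
    exact h4

theorem Tri.span_Iio_le {a b : Fin k → T} {c : Fin k → ℝ} (h : Tri a b c) (i : Fin k) :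
    span ℝ (a '' Set.Iio i) ≤ span ℝ (b '' Set.Iio i) := by
  rw [Submodule.span_le]
  rintro _ ⟨j, hj, rfl⟩
  exact span_mono (image_mono (Set.Iic_subset_Iio.2 hj)) (h.span_le j)

theorem Tri.span_Iio_ge {a b : Fin k → T} {c : Fin k → ℝ} (h : Tri a b c) (i : Fin k) :
    span ℝ (b '' Set.Iio i) ≤ span ℝ (a '' Set.Iio i) := by
  rw [Submodule.span_le]
  rintro _ ⟨j, hj, rfl⟩
  have h2 : b j = (b j - c j • a j) + c j • a j := by abel
  rw [SetLike.mem_coe, h2]
  exact Submodule.add_mem _ (span_mono (image_mono (Set.Iio_subset_Iio (le_of_lt hj))) (h.mem j))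
    (Submodule.smul_mem _ _ (subset_span ⟨j, hj, rfl⟩))

/-- **Gram–Schmidt of a triangular change** -/
theorem Tri.gs {a b : Fin k → T} {c : Fin k → ℝ} (h : Tri a b c) (i : Fin k) :
    gramSchmidt ℝ b i = c i • gramSchmidt ℝ a i := by
  set z : T := c i • gramSchmidt ℝ a i - gramSchmidt ℝ b i with hz
  have h1 : z ∈ span ℝ (a '' Set.Iio i) := by
    have h2 : z = (b i - gramSchmidt ℝ b i) - (b i - c i • a i) -
        c i • (a i - gramSchmidt ℝ a i) := by
      rw [hz, smul_sub]
      abel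
    rw [h2]
    exact Submodule.sub_mem _ (Submodule.sub_mem _ (h.span_Iio_ge i (sub_gs_mem b i)) (h.mem i))
      (Submodule.smul_mem _ _ (sub_gs_mem a i))
  have h2 : inner ℝ z z = (0 : ℝ) := by
    have h3 := gs_orth_span a h1
    have h4 := gs_orth_span b (h.span_Iio_le i h1)
    conv_lhs => rw [show z = c i • gramSchmidt ℝ a i - gramSchmidt ℝ b i from rfl]
    rw [inner_sub_left, real_inner_smul_left, h3, h4, mul_zero, sub_zero]
  have h3 : z = 0 := inner_self_eq_zero.1 h2
  rw [hz, sub_eq_zero] at h3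
  exact h3.symm

theorem Tri.gsn {a b : Fin k → T} {c : Fin k → ℝ} (h : Tri a b c) (i : Fin k) :
    gramSchmidtNormed ℝ b i = gramSchmidtNormed ℝ a i := by
  unfold gramSchmidtNormed
  rw [h.gs i, norm_smul, Real.norm_of_nonneg (h.pos i).le]
  rcases eq_or_ne (gramSchmidt ℝ a i) 0 with h0 | h0
  · rw [h0, smul_zero, smul_zero, smul_zero]
  · simp only [RCLike.ofReal_real_eq_id, id_eq]
    rw [smul_smul, mul_inv, mul_assoc, mul_comm (‖gramSchmidt ℝ a i‖⁻¹), ← mul_assoc,
      inv_mul_cancel₀ (h.pos i).ne', one_mul]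

/-- the normalised Gram–Schmidt family is a triangular change -/
theorem tri_gsn {a : Fin k → T} (h : LinearIndependent ℝ a) :
    Tri a (gramSchmidtNormed ℝ a) (fun i => ‖gramSchmidt ℝ a i‖⁻¹) := by
  refine ⟨fun i => inv_pos.2 (norm_pos_iff.2 (gramSchmidt_ne_zero i h)), fun i => ?_⟩
  have h1 : gramSchmidtNormed ℝ a i - ‖gramSchmidt ℝ a i‖⁻¹ • a i =
      -(‖gramSchmidt ℝ a i‖⁻¹ • (a i - gramSchmidt ℝ a i)) := by
    unfold gramSchmidtNormed
    simp only [RCLike.ofReal_real_eq_id, id_eq]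
    rw [smul_sub]
    abel
  rw [h1]
  exact Submodule.neg_mem _ (Submodule.smul_mem _ _ (sub_gs_mem a i))

/-- linear maps preserve triangular changes -/
theorem Tri.map {T' : Type*} [NormedAddCommGroup T'] [InnerProductSpace ℝ T'] {a b : Fin k → T}
    {c : Fin k → ℝ} (h : Tri a b c) (B : T →ₗ[ℝ] T') :
    Tri (fun i => B (a i)) (fun i => B (b i)) c := by
  refine ⟨h.pos, fun i => ?_⟩
  have h1 := Submodule.mem_map_of_mem (f := B) (h.mem i)
  rw [Submodule.map_span, map_sub, map_smul] at h1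
  have h2 : (fun i => B (a i)) '' Set.Iio i = B '' (a '' Set.Iio i) := by
    rw [Set.image_image]
  rw [h2]
  exact h1

/-- **Gram–Schmidt after a linear map does not see a preceding Gram–Schmidt** -/
theorem gsn_comp {T' : Type*} [NormedAddCommGroup T'] [InnerProductSpace ℝ T'] {a : Fin k → T}
    (h : LinearIndependent ℝ a) (B : T →ₗ[ℝ] T') (i : Fin k) :
    gramSchmidtNormed ℝ (fun i => B (gramSchmidtNormed ℝ a i)) i =
      gramSchmidtNormed ℝ (fun i => B (a i)) i :=
  ((tri_gsn h).map B).gsn i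

/-- signs -/
theorem gs_sign (a : Fin k → T) {ε : Fin k → ℝ} (hε : ∀ i, ε i = 1 ∨ ε i = -1) (i : Fin k) :
    gramSchmidt ℝ (fun i => ε i • a i) i = ε i • gramSchmidt ℝ a i := by
  have hsq : ∀ i, ε i * ε i = 1 := fun i => by rcases hε i with h | h <;> rw [h] <;> norm_num
  induction i using WellFoundedLT.induction with
  | ind n ih =>
    rw [gramSchmidt_def'' ℝ a n |> fun h => (eq_sub_of_add_eq h.symm : _)]
    rw [gramSchmidt_def'' ℝ (fun i => ε i • a i) n |> fun h => (eq_sub_of_add_eq h.symm : _)]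
    rw [smul_sub, Finset.smul_sum]
    congr 1
    refine Finset.sum_congr rfl fun i hi => ?_
    rw [ih i (Finset.mem_Iio.1 hi)]
    have h1 : ‖ε i • gramSchmidt ℝ a i‖ = ‖gramSchmidt ℝ a i‖ := by
      rw [norm_smul]
      rcases hε i with h | h <;> rw [h] <;> simp
    rw [h1, real_inner_smul_left, real_inner_smul_right, smul_smul, smul_smul]
    congr 1
    have h2 := hsq i
    rw [mul_div_assoc', div_mul_eq_mul_div]
    congr 1
    calc ε i * (ε n * inner ℝ (gramSchmidt ℝ a i) (a n)) * ε i =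
        (ε i * ε i) * (ε n * inner ℝ (gramSchmidt ℝ a i) (a n)) := by ring
      _ = _ := by rw [h2, one_mul]

theorem gsn_sign (a : Fin k → T) {ε : Fin k → ℝ} (hε : ∀ i, ε i = 1 ∨ ε i = -1) (i : Fin k) :
    gramSchmidtNormed ℝ (fun i => ε i • a i) i = ε i • gramSchmidtNormed ℝ a i := by
  unfold gramSchmidtNormed
  rw [gs_sign a hε]
  have h1 : ‖ε i • gramSchmidt ℝ a i‖ = ‖gramSchmidt ℝ a i‖ := by
    rw [norm_smul]
    rcases hε i with h | h <;> rw [h] <;> simp
  rw [h1, smul_comm]

theorem gsn_zero_eq {k : ℕ} (a : Fin (k + 1) → T) :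
    gramSchmidtNormed ℝ a 0 = ‖a 0‖⁻¹ • a 0 := by
  unfold gramSchmidtNormed
  have h : gramSchmidt ℝ a 0 = a 0 := by
    rw [gramSchmidt_def]
    have : Finset.Iio (0 : Fin (k + 1)) = ∅ := by
      ext i
      simp
    rw [this, Finset.sum_empty, sub_zero]
  rw [h]
  rfl

end Abs

end

end Vale.Agent.P231.S2I3
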