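import Vale.Agent.P231.S2I3.Step

/-!
# P231, stage 2, block S2-I (I3), part 3: lifting homotopies of unit vectors to frames of `L`
-/

set_option maxSynthPendingDepth 3
set_option linter.unusedSectionVars false
set_option linter.unusedVariables false

open Bundle Manifold Set Filter Module
open scoped ContDiff Manifold Topology

namespace Vale.Agent.P231.S2I3

noncomputable section

open Vale.Agent.P234 Vale.Agent.P231 Vale.Agent.P231.Fm Vale.Agent.P231.W Vale.Agent.P231.WR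
open Vale.Agent.P231.H775 InnerProductSpace

variable {E : Type*} [NormedAddCommGroup E] [NormedSpace ℝ E]
  {M : Type*} [MetricSpace M] [ChartedSpace E M]
  [RiemannianBundle (fun x : M => TangentSpace 𝓘(ℝ, E) x)]
  {e : ∀ x : M, TangentSpace 𝓘(ℝ, E) x → M}
  [FiniteDimensional ℝ E] [IsManifold 𝓘(ℝ, E) ∞ M]
  [IsContMDiffRiemannianBundle 𝓘(ℝ, E) ∞ E (fun x : M => TangentSpace 𝓘(ℝ, E) x)]
  [CompactSpace M] [ConnectedSpace M] [IsRiemannianManifold 𝓘(ℝ, E) M]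

/-- uniform step size: a neighbourhood of the diagonal over a compact set -/
theorem exists_step {E₁ : Type*} [PseudoMetricSpace E₁] {K : Set E₁} (hK : IsCompact K)
    {P : E₁ → ℝ → ℝ → Prop}
    (h : ∀ z ∈ K, ∀ t ∈ Icc (0 : ℝ) 1, ∀ᶠ q in 𝓝 ((z, t, t) : E₁ × ℝ × ℝ), P q.1 q.2.1 q.2.2) :
    ∃ N : ℕ, 0 < N ∧ ∀ z ∈ K, ∀ s ∈ Icc (0 : ℝ) 1, ∀ t ∈ Icc (0 : ℝ) 1, |s - t| ≤ 1 / N →
      P z s t := by
  set S : Set (E₁ × ℝ × ℝ) := {q | P q.1 q.2.1 q.2.2} with hS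
  set Δ : Set (E₁ × ℝ × ℝ) := (fun q : E₁ × ℝ => (q.1, q.2, q.2)) '' (K ×ˢ Icc (0 : ℝ) 1) with hΔ
  have hΔc : IsCompact Δ := (hK.prod isCompact_Icc).image (by fun_prop)
  have hΔS : Δ ⊆ interior S := by
    rintro _ ⟨⟨z, t⟩, ⟨hz, ht⟩, rfl⟩
    exact mem_interior_iff_mem_nhds.2 (h z hz t ht)
  obtain ⟨δ, hδ, hsub⟩ := hΔc.exists_thickening_subset_open isOpen_interior hΔS
  obtain ⟨N, hN⟩ := exists_nat_gt (1 / δ)
  have hNpos : (0 : ℝ) < N := (by positivity : (0 : ℝ) < 1 / δ).trans hN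
  refine ⟨N, Nat.cast_pos.1 hNpos, fun z hz s hs t ht hst => ?_⟩
  have h1 : ((z, s, t) : E₁ × ℝ × ℝ) ∈ Metric.thickening δ Δ := by
    rw [Metric.mem_thickening_iff]
    refine ⟨(z, s, s), ⟨(z, s), ⟨hz, hs⟩, rfl⟩, ?_⟩
    rw [Prod.dist_eq, Prod.dist_eq, dist_self, dist_self, max_eq_right, max_eq_right,
      Real.dist_eq]
    · rw [abs_sub_comm]
      refine hst.trans_lt ?_
      rw [div_lt_iff₀ hNpos]
      rw [div_lt_iff₀ hδ] at hN
      linarith
    · exact dist_nonneg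
    · exact le_max_of_le_left le_rfl
  have h2 : ((z, s, t) : E₁ × ℝ × ℝ) ∈ S := interior_subset (hsub h1)
  exact h2

/-- the intermediate times -/
def tk (N k : ℕ) (s : ℝ) : ℝ := 1 - (k / N : ℝ) * (1 - Real.smoothTransition s)

theorem tk_zero (N : ℕ) (s : ℝ) : tk N 0 s = 1 := by simp [tk]

theorem tk_self {N : ℕ} (hN : 0 < N) (s : ℝ) : tk N N s = Real.smoothTransition s := by
  have h : (N : ℝ) ≠ 0 := Nat.cast_ne_zero.2 hN.ne'
  rw [tk, div_self h]
  ring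

theorem tk_one (N k : ℕ) : tk N k 1 = 1 := by simp [tk]

theorem tk_mem {N k : ℕ} (hk : k ≤ N) (s : ℝ) : tk N k s ∈ Icc (0 : ℝ) 1 := by
  rcases Nat.eq_zero_or_pos N with rfl | hN
  · have : k = 0 := by omega
    subst this
    rw [tk_zero]
    exact ⟨zero_le_one, le_rfl⟩
  have h1 := Real.smoothTransition.nonneg s
  have h2 := Real.smoothTransition.le_one s
  have h3 : (0 : ℝ) < N := Nat.cast_pos.2 hN
  have h4 : (k / N : ℝ) ≤ 1 := by
    rw [div_le_one h3]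
    exact_mod_cast hk
  have h5 : (0 : ℝ) ≤ k / N := by positivity
  constructor
  · rw [tk]
    nlinarith
  · rw [tk]
    nlinarith

theorem tk_succ (N k : ℕ) (s : ℝ) : |tk N k s - tk N (k + 1) s| ≤ 1 / N := by
  have h1 := Real.smoothTransition.nonneg s
  have h2 := Real.smoothTransition.le_one s
  have h3 : tk N k s - tk N (k + 1) s = (1 / N : ℝ) * (1 - Real.smoothTransition s) := by
    rw [tk, tk]
    push_cast
    ring
  rw [h3, abs_mul, abs_of_nonneg (by positivity : (0 : ℝ) ≤ 1 / N), abs_of_nonneg (by linarith)]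
  exact mul_le_of_le_one_right (by positivity) (by linarith)

theorem contDiff_tk (N k : ℕ) : ContDiff ℝ ∞ (tk N k) :=
  contDiff_const.sub (contDiff_const.mul (contDiff_const.sub Real.smoothTransition.contDiff))

section Lift

variable (F : Facts e) {D : ℝ} (hD : 0 < D) (hB : InjGE e D) (hdiam : ∀ p q : M, dist p q ≤ D)
    {l : ℕ} (hP : ∀ x y : M, dist x y = D → finrank ℝ (H775.Pl e D x y) = l + 1)
    {X : Type*} {dX : Dif X}

/-- the successive transports -/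
def Ck (c : X × ℝ → UT E M) (j : X → Fr e D l) (N : ℕ) : ℕ → X × ℝ → Fr e D l
  | 0, q => j q.1
  | k + 1, q => Tp F hD hB hdiam hP (c (q.1, tk N (k + 1) q.2)) (Ck c j N k q)

variable {c : X × ℝ → UT E M} {j : X → Fr e D l}

theorem Ck_v (hj : ∀ x, (j x).v = c (x, 1)) (N k : ℕ) (q : X × ℝ) :
    (Ck F hD hB hdiam hP c j N k q).v = c (q.1, tk N k q.2) := by
  cases k with
  | zero => rw [Ck, tk_zero, hj]
  | succ k => rw [Ck, Tp_v]

theorem Ck_one (hj : ∀ x, (j x).v = c (x, 1)) (N k : ℕ) (x : X) :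
    Ck F hD hB hdiam hP c j N k (x, 1) = j x := by
  induction k with
  | zero => rfl
  | succ k ih =>
    rw [Ck, ih, tk_one, ← hj]
    exact Tp_self F hD hB hdiam hP (j x)

theorem Ck_congr {x y : X} (h : ∀ t, c (x, t) = c (y, t)) (h' : j x = j y) (N k : ℕ) (s : ℝ) :
    Ck F hD hB hdiam hP c j N k (x, s) = Ck F hD hB hdiam hP c j N k (y, s) := by
  induction k with
  | zero => exact h'
  | succ k ih =>
    rw [Ck, Ck, ih, h]

theorem map_Ck (hc : (dX.prod (Dif.lin ℝ)).Map (dUT E M) c) (hjm : dX.Map (dFr e D l) j)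
    (hj : ∀ x, (j x).v = c (x, 1)) {N : ℕ}
    (hg : ∀ x, ∀ s ∈ Icc (0 : ℝ) 1, ∀ t ∈ Icc (0 : ℝ) 1, |s - t| ≤ 1 / N →
      Good e D (c (x, s)) (c (x, t))) (k : ℕ) (hk : k ≤ N) :
    (dX.prod (Dif.lin ℝ)).Map (dFr e D l) (Ck F hD hB hdiam hP c j N k) := by
  induction k with
  | zero => exact fun {E'} _ _ _ {u x} h => hjm h.1
  | succ k ih =>
    intro E' _ _ _ u x h
    have h1 := ih (by omega) h
    have h2 : (dUT E M).At (fun s => c ((u s).1, tk N (k + 1) (u s).2)) x :=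
      hc (u := fun s => ((u s).1, tk N (k + 1) (u s).2))
        ⟨h.1, Sm.comp (f := tk N (k + 1)) (g := fun s => (u s).2)
          (Sm.of_contDiff (contDiff_tk N (k + 1)) _) h.2⟩
    refine at_Tp F hD hB hdiam hP h2 h1 ?_
    have h3 := Ck_v F hD hB hdiam hP hj N k (u x)
    change Good e D (Ck F hD hB hdiam hP c j N k (u x)).v _
    rw [h3]
    exact hg _ _ (tk_mem (by omega) _) _ (tk_mem hk _) (tk_succ _ _ _)

include F hD hB hdiam hP in
/-- **Lifting of homotopies to frames.** The paths of `c` are covered by a compact family of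
plots. -/
theorem exists_lift (hc : (dX.prod (Dif.lin ℝ)).Map (dUT E M) c) (hjm : dX.Map (dFr e D l) j)
    (hj : ∀ x, (j x).v = c (x, 1)) {E₁ : Type} [NormedAddCommGroup E₁] [NormedSpace ℝ E₁]
    [FiniteDimensional ℝ E₁] {K : Set E₁} (hK : IsCompact K) {κ : E₁ → X}
    (hκ : ∀ z ∈ K, dX.At κ z) (hcov : ∀ x, ∃ z ∈ K, ∀ t ∈ Icc (0 : ℝ) 1, c (x, t) = c (κ z, t)) :
    ∃ C : X × ℝ → Fr e D l, (dX.prod (Dif.lin ℝ)).Map (dFr e D l) C ∧ (∀ x, C (x, 1) = j x) ∧
      (∀ x s, (C (x, s)).v = c (x, Real.smoothTransition s)) ∧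
      ∀ x y, (∀ t, c (x, t) = c (y, t)) → j x = j y → ∀ s, C (x, s) = C (y, s) := by
  obtain ⟨N, hN, hg⟩ := exists_step hK (P := fun z s t => Good e D (c (κ z, s)) (c (κ z, t)))
    (by
      intro z hz t ht
      have h1 : (dUT E M).At (fun q : E₁ × ℝ × ℝ => c (κ q.1, q.2.1)) (z, t, t) := by
        refine hc (u := fun q : E₁ × ℝ × ℝ => (κ q.1, q.2.1)) ⟨?_, ?_⟩
        · exact dX.comp (u := κ) (g := fun q : E₁ × ℝ × ℝ => q.1) (hκ z hz)
            (Sm.of_contDiff contDiff_fst _)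
        · exact Sm.of_contDiff (contDiff_fst.comp contDiff_snd) _
      have h2 : (dUT E M).At (fun q : E₁ × ℝ × ℝ => c (κ q.1, q.2.2)) (z, t, t) := by
        refine hc (u := fun q : E₁ × ℝ × ℝ => (κ q.1, q.2.2)) ⟨?_, ?_⟩
        · exact dX.comp (u := κ) (g := fun q : E₁ × ℝ × ℝ => q.1) (hκ z hz)
            (Sm.of_contDiff contDiff_fst _)
        · exact Sm.of_contDiff (contDiff_snd.comp contDiff_snd) _
      exact good_eventually F hD hB hdiam hP h1 h2 (good_self F hD hB _))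
  have hg' : ∀ x, ∀ s ∈ Icc (0 : ℝ) 1, ∀ t ∈ Icc (0 : ℝ) 1, |s - t| ≤ 1 / N →
      Good e D (c (x, s)) (c (x, t)) := by
    intro x s hs t ht hst
    obtain ⟨z, hz, hzc⟩ := hcov x
    rw [hzc s hs, hzc t ht]
    exact hg z hz s hs t ht hst
  refine ⟨Ck F hD hB hdiam hP c j N N, map_Ck F hD hB hdiam hP hc hjm hj hg' N le_rfl,
    Ck_one F hD hB hdiam hP hj N N, fun x s => ?_, fun x y h h' s =>
      Ck_congr F hD hB hdiam hP h h' N N s⟩
  rw [Ck_v F hD hB hdiam hP hj, tk_self hN]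

end Lift

end

end Vale.Agent.P231.S2I3
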