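import Vale.Agent.P231.S2I3.Base
import Vale.Agent.P231.S2I.Fun3

/-!
# P231, stage 2, block S2-I (I3), part 5: the homotopy of a homogeneous family of frames to
families of frames of one fibre
-/

set_option maxSynthPendingDepth 3
set_option linter.unusedSectionVars false
set_option linter.unusedVariables false

open Bundle Manifold Set Filter Module
open scoped ContDiff Manifold Topology ENNReal

namespace Vale.Agent.P231.S2I3

noncomputable section

open Vale.Agent.P234 Vale.Agent.P231 Vale.Agent.P231.Fm Vale.Agent.P231.W Vale.Agent.P231.WR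
open Vale.Agent.P231.H775 Vale.Agent.P231.WE Vale.Agent.P231.WF InnerProductSpace

/-! ### a missed direction -/

/-- a homogeneous family of vectors, depending on fewer parameters than the dimension, misses a
direction -/
theorem exists_missed_dir {V W : Type*} [NormedAddCommGroup V] [NormedSpace ℝ V]
    [FiniteDimensional ℝ V] [NormedAddCommGroup W] [InnerProductSpace ℝ W] [FiniteDimensional ℝ W]
    {f : V → W} (hf : ∀ z, z ≠ 0 → ContDiffAt ℝ 1 f z)
    (hom : ∀ z, z ≠ 0 → ∀ c : ℝ, 0 < c → f (c • z) = f z) (h0 : ∀ z, z ≠ 0 → f z ≠ 0)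
    (hd : finrank ℝ V < finrank ℝ W) :
    ∃ u₀ : W, ‖u₀‖ = 1 ∧ ∀ z, z ≠ 0 → ∀ t ∈ Icc (0 : ℝ) 1, (1 - t) • u₀ + t • f z ≠ 0 := by
  have : Nontrivial W := nontrivial_of_finrank_pos (R := ℝ) (by omega)
  borelize V
  set A : Set V := {z | z ≠ 0} with hA
  set g : V → W := fun z => ‖z‖ • f z with hg
  have hgl : ∀ z ∈ A, ∃ C : NNReal, ∃ t ∈ 𝓝[A] z, LipschitzOnWith C g t := by
    intro z hz
    have h1 : ∃ C : NNReal, ∃ t ∈ 𝓝 z, LipschitzOnWith C (fun z => ‖z‖) t :=
      ⟨1, univ, univ_mem, lipschitzWith_one_norm.lipschitzOnWith⟩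
    obtain ⟨C₁, t₁, ht₁, hC₁⟩ := h1
    obtain ⟨C₂, t₂, ht₂, hC₂⟩ := (hf z hz).exists_lipschitzOnWith
    -- product of bounded Lipschitz functions
    have h2 : ∀ᶠ y in 𝓝 z, ‖y‖ < ‖z‖ + 1 :=
      continuous_norm.continuousAt.eventually (gt_mem_nhds (by linarith))
    have h3 : ∀ᶠ y in 𝓝 z, ‖f y‖ < ‖f z‖ + 1 :=
      (hf z hz).continuousAt.norm.eventually (gt_mem_nhds (by linarith))
    obtain ⟨a, ha⟩ : ∃ a : NNReal, (a : ℝ) = ‖z‖ + 1 := ⟨⟨‖z‖ + 1, by positivity⟩, rfl⟩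
    obtain ⟨b, hb⟩ : ∃ b : NNReal, (b : ℝ) = ‖f z‖ + 1 := ⟨⟨‖f z‖ + 1, by positivity⟩, rfl⟩
    refine ⟨a * C₂ + b * C₁,
      {y | y ∈ t₁ ∧ y ∈ t₂ ∧ ‖y‖ < ‖z‖ + 1 ∧ ‖f y‖ < ‖f z‖ + 1}, ?_, ?_⟩
    · refine mem_nhdsWithin_of_mem_nhds ?_
      filter_upwards [ht₁, ht₂, h2, h3] with y a b c d using ⟨a, b, c, d⟩
    · refine LipschitzOnWith.of_dist_le_mul fun x hx y hy => ?_
      have e1 := hC₁.dist_le_mul x hx.1 y hy.1
      have e2 := hC₂.dist_le_mul x hx.2.1 y hy.2.1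
      have e3 : g x - g y = ‖x‖ • (f x - f y) + (‖x‖ - ‖y‖) • f y := by
        simp only [hg]
        rw [smul_sub, sub_smul]
        abel
      rw [dist_eq_norm, e3]
      refine (norm_add_le _ _).trans ?_
      rw [norm_smul, norm_smul, norm_norm]
      have e4 : ‖f x - f y‖ ≤ C₂ * dist x y := by
        rw [← dist_eq_norm]
        exact e2
      have e5 : ‖‖x‖ - ‖y‖‖ ≤ C₁ * dist x y := by
        rw [← dist_eq_norm]
        exact e1
      have e6 : ‖x‖ * ‖f x - f y‖ ≤ (‖z‖ + 1) * (C₂ * dist x y) :=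
        mul_le_mul hx.2.2.1.le e4 (norm_nonneg _) (by positivity)
      have e7 : ‖‖x‖ - ‖y‖‖ * ‖f y‖ ≤ (C₁ * dist x y) * (‖f z‖ + 1) :=
        mul_le_mul e5 hy.2.2.2.le (norm_nonneg _) (by positivity)
      refine (add_le_add e6 e7).trans (le_of_eq ?_)
      rw [NNReal.coe_add, NNReal.coe_mul, NNReal.coe_mul, ha, hb]
      ring
  have hdim : dimH (g '' A) < finrank ℝ W := by
    calc dimH (g '' A) ≤ dimH A := dimH_image_le_of_locally_lipschitzOn hgl
      _ ≤ dimH (univ : Set V) := dimH_mono (subset_univ _)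
      _ = finrank ℝ V := Real.dimH_univ_eq_finrank V
      _ < finrank ℝ W := by exact_mod_cast hd
  have hdim2 : dimH (g '' A ∪ {0}) < finrank ℝ W := by
    rw [dimH_union, dimH_singleton]
    exact max_lt hdim (by exact_mod_cast (by omega : 0 < finrank ℝ W))
  obtain ⟨w, hw⟩ := (dense_compl_of_dimH_lt_finrank hdim2).nonempty
  have hw1 : w ∉ g '' A := fun h => hw (Or.inl h)
  have hw0 : w ≠ 0 := fun h => hw (Or.inr h)
  have hwn : 0 < ‖w‖ := norm_pos_iff.2 hw0
  refine ⟨-(‖w‖⁻¹ • w), by rw [norm_neg, norm_smul, norm_inv, norm_norm,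
    inv_mul_cancel₀ hwn.ne'], fun z hz t ht h => ?_⟩
  rcases ht.2.eq_or_lt with h1 | h1
  · rw [h1, sub_self, zero_smul, zero_add, one_smul] at h
    exact h0 z hz h
  have ht0 : 0 < t := by
    rcases ht.1.eq_or_lt with h2 | h2
    · exfalso
      rw [← h2, sub_zero, one_smul, zero_smul, add_zero, neg_eq_zero, smul_eq_zero,
        inv_eq_zero] at h
      rcases h with h | h
      · exact hwn.ne' h
      · exact hw0 h
    · exact h2
  have h2 : w = (t * ‖w‖ / (1 - t)) • f z := by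
    have h3 : t • f z = ((1 - t) * ‖w‖⁻¹) • w := by
      have h4 : t • f z = -((1 - t) • -(‖w‖⁻¹ • w)) := by
        rw [add_comm] at h
        exact eq_neg_of_add_eq_zero_left h
      rw [h4, smul_neg, neg_neg, smul_smul]
    have h5 : (t * ‖w‖ / (1 - t)) • f z = (‖w‖ / (1 - t)) • (t • f z) := by
      rw [smul_smul]
      congr 1
      ring
    have h6 : (1 - t) ≠ 0 := by linarith
    rw [h5, h3, smul_smul]
    have h7 : ‖w‖ / (1 - t) * ((1 - t) * ‖w‖⁻¹) = 1 := by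
      field_simp
    rw [h7, one_smul]
  have hr : 0 < t * ‖w‖ / (1 - t) := div_pos (mul_pos ht0 hwn) (by linarith)
  have hzn : 0 < ‖z‖ := norm_pos_iff.2 hz
  refine hw1 ⟨(t * ‖w‖ / (1 - t) / ‖z‖) • z, ?_, ?_⟩
  · exact smul_ne_zero (div_pos hr hzn).ne' hz
  · simp only [hg]
    rw [hom z hz _ (div_pos hr hzn), norm_smul, Real.norm_of_nonneg (div_pos hr hzn).le,
      div_mul_cancel₀ _ hzn.ne']
    exact h2.symm

variable {E : Type*} [NormedAddCommGroup E] [NormedSpace ℝ E]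
  {M : Type*} [MetricSpace M] [ChartedSpace E M]
  [RiemannianBundle (fun x : M => TangentSpace 𝓘(ℝ, E) x)]
  {e : ∀ x : M, TangentSpace 𝓘(ℝ, E) x → M}
  [FiniteDimensional ℝ E] [IsManifold 𝓘(ℝ, E) ∞ M]
  [IsContMDiffRiemannianBundle 𝓘(ℝ, E) ∞ E (fun x : M => TangentSpace 𝓘(ℝ, E) x)]
  [CompactSpace M] [ConnectedSpace M] [IsRiemannianManifold 𝓘(ℝ, E) M]

section Gen

variable (F : Facts e) {D : ℝ} (hD : 0 < D) (hB : InjGE e D) (hdiam : ∀ p q : M, dist p q ≤ D)
    {l : ℕ} (hP : ∀ x y : M, dist x y = D → finrank ℝ (H775.Pl e D x y) = l + 1)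
    {X : Type*} {dX : Dif X}

include F hD hB hdiam hP in
/-- **(I3), general form.** A family of frames over admissible unit vectors is homotopic to a
family of frames over one unit vector. -/
theorem exists_homotopy {q : M} {u₀ : TangentSpace 𝓘(ℝ, E) q} (hu₀ : ‖u₀‖ = 1)
    {j : X → Fr e D l} (hjm : dX.Map (dFr e D l) j) (hOk : ∀ x, Ok e D q u₀ (j x).v)
    {E₁ : Type} [NormedAddCommGroup E₁] [NormedSpace ℝ E₁]
    [FiniteDimensional ℝ E₁] {K : Set E₁} (hK : IsCompact K) {κ : E₁ → X}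
    (hκ : ∀ z ∈ K, dX.At κ z) (hcov : ∀ x, ∃ z ∈ K, (j x).v = (j (κ z)).v) :
    ∃ C : X × ℝ → Fr e D l, (dX.prod (Dif.lin ℝ)).Map (dFr e D l) C ∧ (∀ x, C (x, 1) = j x) ∧
      (∀ x, (C (x, 0)).v = mk (E := E) q u₀ hu₀) ∧
      ∀ x y, j x = j y → ∀ s, C (x, s) = C (y, s) := by
  set c : X × ℝ → UT E M := fun p => path e q u₀ ((j p.1).v, Real.smoothTransition p.2) with hc
  have hcm : (dX.prod (Dif.lin ℝ)).Map (dUT E M) c := by
    intro E' _ _ _ u x h
    refine at_path F hB (u := fun s => (j (u s).1).v)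
      (τ := fun s => Real.smoothTransition (u s).2) (hjm h.1).1 ?_ (hOk _)
      ⟨Real.smoothTransition.nonneg _, Real.smoothTransition.le_one _⟩
    exact Sm.comp (f := Real.smoothTransition) (g := fun s => (u s).2)
      (Sm.of_contDiff Real.smoothTransition.contDiff _) h.2
  have hj1 : ∀ x, (j x).v = c (x, 1) := by
    intro x
    simp only [hc, Real.smoothTransition.one]
    exact (path_one F hB (hOk x)).symm
  obtain ⟨C, h1, h2, h3, h4⟩ := exists_lift F hD hB hdiam hP hcm hjm hj1 hK hκ (fun x => by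
    obtain ⟨z, hz, hzx⟩ := hcov x
    refine ⟨z, hz, fun t _ => ?_⟩
    simp only [hc]
    rw [hzx])
  refine ⟨C, h1, h2, fun x => ?_, fun x y hxy s => h4 x y (fun t => ?_) hxy s⟩
  · rw [h3 x 0]
    simp only [hc, Real.smoothTransition.zero]
    exact path_zero F hB hu₀ (hOk x)
  · simp only [hc]
    rw [hxy]

end Gen

/-! ### homogeneous families -/

section Hom

open Vale.Agent.P231.S2I (Px dPx ret ret_val ret_of ret_coe at_ret map_val)

variable {V : Type} [NormedAddCommGroup V] [NormedSpace ℝ V] [FiniteDimensional ℝ V] [Nontrivial V]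

variable (F : Facts e) {D : ℝ} (hD : 0 < D) (hB : InjGE e D) (hdiam : ∀ p q : M, dist p q ≤ D)
    {l : ℕ} (hP : ∀ x y : M, dist x y = D → finrank ℝ (H775.Pl e D x y) = l + 1)

include F hD hB hdiam hP in
/-- **(I3).** A smooth homogeneous family of frames on `V ∖ 0` whose feet miss the cut locus of
`q` is homotopic, by homogeneous families, to a family over one unit vector at `q`. -/
theorem exists_homotopy_hom {q : M} {j : Px V → Fr e D l} (hjm : (dPx V).Map (dFr e D l) j)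
    (hom : ∀ x y : Px V, ∀ c : ℝ, 0 < c → (y : V) = c • (x : V) → j y = j x)
    (hq : ∀ x, dist q (foot (j x).v) < D) (hdim : finrank ℝ V < finrank ℝ E) :
    ∃ (v₀ : UT E M) (C : Px V × ℝ → Fr e D l), foot v₀ = q ∧
      ((dPx V).prod (Dif.lin ℝ)).Map (dFr e D l) C ∧ (∀ x, C (x, 1) = j x) ∧
      (∀ x, (C (x, 0)).v = v₀) ∧
      ∀ x y : Px V, ∀ c : ℝ, 0 < c → (y : V) = c • (x : V) → ∀ s, C (y, s) = C (x, s) := by
  have hT : finrank ℝ (TangentSpace 𝓘(ℝ, E) q) = finrank ℝ E := rfl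
  obtain ⟨u₀, hu₀, hu⟩ := exists_missed_dir (V := V) (W := TangentSpace 𝓘(ℝ, E) q)
    (f := fun z => al e q (j (ret z)).v)
    (fun z hz => by
      have h1 : (dUT E M).At (fun s => (j (ret s)).v) z := (hjm (at_ret hz)).1
      have h2 := sm_al F hB h1 (hq _)
      exact (h2.contDiffAt).of_le (by simp))
    (fun z hz c hc => by
      have hcz : c • z ≠ 0 := smul_ne_zero hc.ne' hz
      have h1 : j (ret (c • z)) = j (ret z) := hom _ _ c hc (by rw [ret_val hcz, ret_val hz])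
      change al e q (j (ret (c • z))).v = al e q (j (ret z)).v
      rw [h1])
    (fun z hz => al_ne_zero F hB (hq _)) (by rw [hT]; exact hdim)
  have hOk : ∀ x, Ok e D q u₀ (j x).v := by
    intro x
    refine ⟨hq x, fun t ht => ?_⟩
    have h1 := hu x x.2 t ht
    rw [ret_coe] at h1
    exact h1
  obtain ⟨C, h1, h2, h3, h4⟩ := exists_homotopy F hD hB hdiam hP hu₀ hjm hOk
    (isCompact_sphere (0 : V) 1) (κ := ret) (fun z hz => at_ret (by
      intro h0
      rw [h0] at hz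
      simp at hz)) (fun x => by
      have hxn : 0 < ‖(x : V)‖ := norm_pos_iff.2 x.2
      have hne : ‖(x : V)‖⁻¹ • (x : V) ≠ 0 := smul_ne_zero (inv_pos.2 hxn).ne' x.2
      refine ⟨‖(x : V)‖⁻¹ • (x : V), ?_, ?_⟩
      · rw [mem_sphere_zero_iff_norm, norm_smul, norm_inv, norm_norm, inv_mul_cancel₀ hxn.ne']
      · rw [hom x (ret (‖(x : V)‖⁻¹ • (x : V))) ‖(x : V)‖⁻¹ (inv_pos.2 hxn) (ret_val hne)])
  refine ⟨mk (E := E) q u₀ hu₀, C, rfl, h1, h2, h3, fun x y c hc hxy s => h4 y x ?_ s⟩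
  exact hom x y c hc hxy

end Hom

end

end Vale.Agent.P231.S2I3
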