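import Vale.Agent.P231.S2I3.Gs
import Vale.Agent.P231.WF.Log

/-!
# P231, stage 2, block S2-I (I3), part 2: transport of frames between near unit vectors

`stepA v v'` maps `L_v` to `L_{v'}`: the differential of the exponential map at the logarithm,
followed by the orthogonal projection to `L_{v'}`.
-/

set_option maxSynthPendingDepth 3
set_option linter.unusedSectionVars false
set_option linter.unusedVariables false

open Bundle Manifold Set Filter Module
open scoped ContDiff Manifold Topology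

namespace Vale.Agent.P231.S2I3

noncomputable section

open Vale.Agent.P234 Vale.Agent.P231 Vale.Agent.P231.Fm Vale.Agent.P231.W Vale.Agent.P231.WR
open Vale.Agent.P231.H775 Vale.Agent.P231.WE Vale.Agent.P231.WF InnerProductSpace

variable {E : Type*} [NormedAddCommGroup E] [NormedSpace ℝ E]
  {M : Type*} [MetricSpace M] [ChartedSpace E M]
  [RiemannianBundle (fun x : M => TangentSpace 𝓘(ℝ, E) x)]
  {e : ∀ x : M, TangentSpace 𝓘(ℝ, E) x → M}
  [FiniteDimensional ℝ E] [IsManifold 𝓘(ℝ, E) ∞ M]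
  [IsContMDiffRiemannianBundle 𝓘(ℝ, E) ∞ E (fun x : M => TangentSpace 𝓘(ℝ, E) x)]
  {k : ℕ}

/-- the logarithm of the foot point, raw -/
def lgr (e : ∀ x : M, TangentSpace 𝓘(ℝ, E) x → M) (v v' : UT E M) : E :=
  logMap e (foot v) (foot v')

/-- the transport step -/
def stepA (e : ∀ x : M, TangentSpace 𝓘(ℝ, E) x → M) (D : ℝ) (v v' : UT E M) (a : E) : E :=
  prL e D v' (dE e (foot v) (lgr e v v') a)

theorem stepA_add (D : ℝ) (v v' : UT E M) (a b : E) :
    stepA e D v v' (a + b) = stepA e D v v' a + stepA e D v v' b := by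
  unfold stepA
  rw [dE_add, prL_add]

theorem stepA_smul (D : ℝ) (v v' : UT E M) (c : ℝ) (a : E) :
    stepA e D v v' (c • a) = c • stepA e D v v' a := by
  unfold stepA
  rw [dE_smul, prL_smul]

/-- the transport step as a linear map -/
def stepL (e : ∀ x : M, TangentSpace 𝓘(ℝ, E) x → M) (D : ℝ) (v v' : UT E M) : E →ₗ[ℝ] E where
  toFun := stepA e D v v'
  map_add' := stepA_add D v v'
  map_smul' := stepA_smul D v v'

theorem stepA_mem (D : ℝ) (v v' : UT E M) (a : E) :
    (stepA (E := E) e D v v' a : TangentSpace 𝓘(ℝ, E) (foot v')) ∈ Lf e D v' := prL_mem D v' _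

/-- the pairs for which the step is defined and injective on `L_v` -/
structure Good (e : ∀ x : M, TangentSpace 𝓘(ℝ, E) x → M) (D : ℝ) (v v' : UT E M) : Prop where
  dist_lt : dist (foot v) (foot v') < D
  inj : ∀ a : E, (a : TangentSpace 𝓘(ℝ, E) (foot v)) ∈ Lf e D v → stepA e D v v' a = 0 → a = 0

variable [CompactSpace M] [ConnectedSpace M] [IsRiemannianManifold 𝓘(ℝ, E) M]

theorem lgr_self (F : Facts e) {D : ℝ} (hD : 0 < D) (hB : InjGE e D) (v : UT E M) :
    lgr e v v = 0 := by
  have h1 := (exp_logMap F hB (p := foot v) (z := foot v) (by rw [dist_self]; exact hD)).2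
  rw [dist_self, norm_eq_zero] at h1
  exact h1

theorem stepA_self (F : Facts e) {D : ℝ} (hD : 0 < D) (hB : InjGE e D) {v : UT E M} {a : E}
    (ha : (a : TangentSpace 𝓘(ℝ, E) (foot v)) ∈ Lf e D v) : stepA e D v v a = a := by
  unfold stepA
  rw [lgr_self F hD hB, dE_zero_base F.isExp, prL_of_mem ha]

theorem good_self (F : Facts e) {D : ℝ} (hD : 0 < D) (hB : InjGE e D) (v : UT E M) :
    Good e D v v := by
  refine ⟨by rw [dist_self]; exact hD, fun a ha h => ?_⟩
  rw [stepA_self F hD hB ha] at h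
  exact h

/-- the images of a frame are linearly independent -/
theorem Good.li {D : ℝ} {v v' : UT E M} (h : Good e D v v') {W : Fin k → UT E M}
    (hW : IsLF e D v W) :
    LinearIndependent ℝ (rv' (foot v') (fun i => stepA e D v v' (vec' (W i)))) := by
  have h1 : LinearIndependent ℝ (fun i => (vec' (W i) : E)) := by
    have h2 : Orthonormal ℝ (rv' (foot v) (fun i => vec' (W i))) :=
      ⟨fun i => (hW.isL i).mem_Lk.1, fun i j hij => hW.orth i j hij⟩
    exact h2.linearIndependent
  rw [Fintype.linearIndependent_iff] at h1 ⊢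
  intro g hg
  have hg' : ∑ i, g i • stepA e D v v' (vec' (W i)) = 0 := hg
  refine h1 g ?_
  refine h.inj _ ?_ ?_
  · have h3 : ∀ i, rv' (foot v) (fun i => vec' (W i)) i ∈ Lf e D v := fun i => (hW.isL i).mem_Lf
    exact Submodule.sum_mem _ fun i _ => Submodule.smul_mem _ _ (h3 i)
  · have h4 : stepL e D v v' (∑ i, g i • vec' (W i)) =
      ∑ i, g i • stepL e D v v' (vec' (W i)) := by
      rw [map_sum]
      simp only [map_smul]
    exact h4.trans hg'

/-- linear independence on one full frame suffices -/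
theorem good_of_li (F : Facts e) {D : ℝ} (hD : 0 < D) (hB : InjGE e D)
    (hdiam : ∀ p q : M, dist p q ≤ D) {l : ℕ}
    (hP : ∀ x y : M, dist x y = D → finrank ℝ (H775.Pl e D x y) = l + 1)
    {v v' : UT E M} (hd : dist (foot v) (foot v') < D) {W : Fin l → UT E M} (hW : IsLF e D v W)
    (h : LinearIndependent ℝ (rv' (foot v') (fun i => stepA e D v v' (vec' (W i))))) :
    Good e D v v' := by
  refine ⟨hd, fun a ha h0 => ?_⟩
  have h1 := hW.prL_eq F hD hB hdiam hP a
  rw [prL_of_mem ha] at h1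
  rw [Fintype.linearIndependent_iff] at h
  have h2 : stepL e D v v' (∑ i, ip (foot v) (vec' (W i)) a • vec' (W i)) =
      ∑ i, ip (foot v) (vec' (W i)) a • stepL e D v v' (vec' (W i)) := by
    rw [map_sum]
    simp only [map_smul]
  rw [← h1] at h2
  have h3 : ∑ i, ip (foot v) (vec' (W i)) a • stepA e D v v' (vec' (W i)) = 0 := h2.symm.trans h0
  have h4 := h (fun i => ip (foot v) (vec' (W i)) a) h3
  rw [h1]
  refine Finset.sum_eq_zero fun i _ => ?_
  have h5 : ip (foot v) (vec' (W i)) a = 0 := h4 i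
  rw [h5, zero_smul]

section Plots

variable {E' : Type} [NormedAddCommGroup E'] [NormedSpace ℝ E'] [FiniteDimensional ℝ E']

/-- the transport step is smooth along plots -/
theorem at_stepA (F : Facts e) {D : ℝ} (hD : 0 < D) (hB : InjGE e D)
    (hdiam : ∀ p q : M, dist p q ≤ D) {l : ℕ}
    (hP : ∀ x y : M, dist x y = D → finrank ℝ (H775.Pl e D x y) = l + 1)
    {u u' : E' → UT E M} {a : E' → E} {x : E'} (hu : (dUT E M).At u x) (hu' : (dUT E M).At u' x)
    (ha : (dTM E M).At (fun s => tb (foot (u s)) (a s)) x)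
    (hd : dist (foot (u x)) (foot (u' x)) < D) :
    (dTM E M).At (fun s => tb (foot (u' s)) (stepA e D (u s) (u' s) (a s))) x := by
  refine at_prL F hD hB hdiam hP hu' ?_
  have hf : ∀ᶠ s in 𝓝 x, ContMDiffAt 𝓘(ℝ, E') 𝓘(ℝ, E) ∞ (fun s => foot (u s)) s := map_foot hu
  have hf' : ∀ᶠ s in 𝓝 x, ContMDiffAt 𝓘(ℝ, E') 𝓘(ℝ, E) ∞ (fun s => foot (u' s)) s := map_foot hu'
  have hd' : ∀ᶠ s in 𝓝 x, dist (foot (u s)) (foot (u' s)) < D :=
    (hf.self_of_nhds.continuousAt.dist hf'.self_of_nhds.continuousAt).eventually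
      (gt_mem_nhds hd)
  have h1 : ∀ᶠ s in 𝓝 x, SmV (fun s => foot (u s))
      (fun s => logMap e (foot (u s)) (foot (u' s))) s := by
    filter_upwards [eventually_eventually_nhds.2 hf, hf', hd'] with s g1 g2 g3
    exact smV_logMap F hB g1 g2 g3
  have h2 := smV_iff_tb.1 ha
  rw [smV_iff_tb]
  filter_upwards [eventually_eventually_nhds.2 h1, eventually_eventually_nhds.2 h2,
    eventually_eventually_nhds.2 hd'] with s g1 g2 g3
  have h3 := H583.smV_dE F.isExp g1 g2
  refine ContMDiffAt.congr_of_eventuallyEq h3 ?_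
  filter_upwards [g3] with s' hs'
  exact tb_congr (exp_logMap F hB hs').1.symm rfl

/-- being good is an open condition -/
theorem good_eventually (F : Facts e) {D : ℝ} (hD : 0 < D) (hB : InjGE e D)
    (hdiam : ∀ p q : M, dist p q ≤ D) {l : ℕ}
    (hP : ∀ x y : M, dist x y = D → finrank ℝ (H775.Pl e D x y) = l + 1)
    {u u' : E' → UT E M} {x : E'} (hu : (dUT E M).At u x) (hu' : (dUT E M).At u' x)
    (h : Good e D (u x) (u' x)) : ∀ᶠ s in 𝓝 x, Good e D (u s) (u' s) := by
  obtain ⟨W₀, hW₀⟩ := exists_isLF F hD hB hdiam hP (u x)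
  obtain ⟨W, h1, h2, h3⟩ := WR.exists_frame F hD hB hdiam hP hu hW₀
  have hWx : IsLF e D (u x) (fun i => W i x) := h3.self_of_nhds
  have h4 : ∀ i, (dTM E M).At (fun s => tb (foot (u s)) (vec' (W i s))) x := by
    intro i
    have h5 := at_iff.1 (h2 i)
    rw [smV_iff_tb]
    filter_upwards [h5, eventually_eventually_nhds.2 h3] with s g1 g2
    refine ContMDiffAt.congr_of_eventuallyEq g1 ?_
    filter_upwards [g2] with s' hs'
    exact tb_congr (hs'.isL i).foot_eq.symm rfl
  have h5 := fun i => at_stepA F hD hB hdiam hP hu hu' (h4 i) h.dist_lt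
  have h6 := li_eventually (f := fun s => foot (u' s))
    (a := fun s => rv' (foot (u' s)) (fun i => stepA e D (u s) (u' s) (vec' (W i s))))
    (fun i => (smV_iff_tb.1 (h5 i)).self_of_nhds) (h.li hWx)
  have hf : ContinuousAt (fun s => foot (u s)) x := by
    have h7 : ∀ᶠ s in 𝓝 x, ContMDiffAt 𝓘(ℝ, E') 𝓘(ℝ, E) ∞ (fun s => foot (u s)) s := map_foot hu
    exact h7.self_of_nhds.continuousAt
  have hf' : ContinuousAt (fun s => foot (u' s)) x := by
    have h7 : ∀ᶠ s in 𝓝 x, ContMDiffAt 𝓘(ℝ, E') 𝓘(ℝ, E) ∞ (fun s => foot (u' s)) s := map_foot hu'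
    exact h7.self_of_nhds.continuousAt
  filter_upwards [h6, h3, (hf.dist hf').eventually (gt_mem_nhds h.dist_lt)] with s g1 g2 g3
  exact good_of_li F hD hB hdiam hP g3 g2 g1

end Plots

/-! ### the transport of frames -/

section Tp

variable (F : Facts e) {D : ℝ} (hD : 0 < D) (hB : InjGE e D) (hdiam : ∀ p q : M, dist p q ≤ D)
    {l : ℕ} (hP : ∀ x y : M, dist x y = D → finrank ℝ (H775.Pl e D x y) = l + 1)

/-- the transport of the frame `p` to the base vector `v'` -/
def Tp (v' : UT E M) (p : Fr e D l) : Fr e D l :=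
  gsT F hD hB hdiam hP v' (fun i => stepA e D p.v v' (vec' (p.w i)))

@[simp] theorem Tp_v (v' : UT E M) (p : Fr e D l) : (Tp F hD hB hdiam hP v' p).v = v' :=
  gsT_v F hD hB hdiam hP _ _

theorem Tp_self (p : Fr e D l) : Tp F hD hB hdiam hP p.v p = p := by
  unfold Tp
  have h1 : (fun i => stepA e D p.v p.v (vec' (p.w i))) = fun i => vec' (p.w i) :=
    funext fun i => stepA_self F hD hB (p.isLF.isL i).mem_Lf
  rw [h1]
  exact gsT_frame F hD hB hdiam hP p

variable {E' : Type} [NormedAddCommGroup E'] [NormedSpace ℝ E'] [FiniteDimensional ℝ E']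

/-- **smoothness of the transport of frames** -/
theorem at_Tp {u' : E' → UT E M} {p : E' → Fr e D l} {x : E'} (hu' : (dUT E M).At u' x)
    (hp : (dFr e D l).At p x) (h : Good e D (p x).v (u' x)) :
    (dFr e D l).At (fun s => Tp F hD hB hdiam hP (u' s) (p s)) x := by
  refine at_gsT F hD hB hdiam hP hu' (fun i => ?_) (Eventually.of_forall fun s i =>
    stepA_mem (E := E) D (p s).v (u' s) (vec' ((p s).w i))) (h.li (p x).isLF)
  refine at_stepA F hD hB hdiam hP hp.1 hu' ?_ h.dist_lt
  have h5 := at_iff.1 (hp.2 i)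
  rw [smV_iff_tb]
  filter_upwards [h5] with s g1
  refine ContMDiffAt.congr_of_eventuallyEq g1 ?_
  exact Eventually.of_forall fun s' => tb_congr ((p s').foot_w i).symm rfl

end Tp

end

end Vale.Agent.P231.S2I3
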